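import Mathlib

/-!
# R257 / TR / Eng / Defs : the ENGINE of Section "A transverse saving" (H transverse.tex l.692-860)      (captain TR: helper217)

PAPER-FREE.  The last part of the proof of `t:transverse` is one dimensional in the scale parameter.  Data on a probability space `(Ω, μ)`:
a random PATH `X ω : EPath` = the common profile `G(s)` (`s` rational), the two angular exponents `h false = h₂`, `h true = h₃`, and the
total cost `c s t bs` of the prefix `[s, s+t]` at direction precision `bs` (= `b_*`).  Everything is indexed by RATIONAL numbers (the coordinates of the limiting law).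

Hypotheses (report 832, ENGINE):
* E1/E2 `EPath.Reg θ c₁` almost surely;
* E3 costs along an arithmetic chain of step `bs` have total expectation `≤ Cc bs`;
* E4 the projection block test: no test `Succ` succeeds with positive probability   (needs `d < d₀ + κ₀`: price of `RW.ex_W1`);
* E5 no full-to-empty jump `Jump`.
Conclusion: `False`  (`tr_engine`, file `Eng/Main.lean`).

The probability is thin: there is a full-measure event on which everything is a DETERMINISTIC statement about one path (`Eng/Path.lean`, `Eng/Real.lean`).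
-/

set_option autoImplicit false

namespace Claimed.Agent.R257.TR

open MeasureTheory Set Filter Topology
open scoped ENNReal

/-- one sampled path: profile, two angular exponents, costs -/
structure EPath where
  /-- the common profile -/
  G : ℚ → ℝ
  /-- the angular exponents `h₂` (`false`), `h₃` (`true`) -/
  h : Bool → ℚ → ℝ
  /-- `c s t bs` = total cost of the prefix `[s,s+t]` at direction precision `bs` -/
  c : ℚ → ℚ → ℚ → ℝ

/-- E1 + E2: regularity of a path -/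
structure EPath.Reg (p : EPath) (θ c₁ : ℝ) : Prop where
  G0 : p.G 0 = 0
  G1 : p.G 1 = θ
  mono : ∀ s t : ℚ, 0 ≤ s → s ≤ t → t ≤ 1 → p.G s ≤ p.G t
  lip : ∀ s t : ℚ, 0 ≤ s → s ≤ t → t ≤ 1 → p.G t - p.G s ≤ (t : ℝ) - s
  low : ∀ s : ℚ, 0 ≤ s → s ≤ 1 → θ * s ≤ p.G s
  h0 : ∀ (j : Bool) (u : ℚ), 0 < u → u < 1 / 8 → 0 ≤ p.h j u
  hmono : ∀ (j : Bool) (u v : ℚ), 0 < u → u ≤ v → v < 1 / 8 → p.h j u ≤ p.h j v
  hsum : ∀ u : ℚ, 0 < u → u < 1 / 8 → c₁ * u ≤ p.h false u + p.h true u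
  c0 : ∀ s t bs : ℚ, 0 ≤ p.c s t bs

/-- admissible rational block `[s, s+b] ⊆ [0,1]`, `0 < b < 1/8` -/
def EBlk (s b : ℚ) : Prop := 0 ≤ s ∧ 0 < b ∧ s + b ≤ 1 ∧ b < 1 / 8

/-- all-success event of the projection block test (H t:block-test (i),(ii),(iii)); the tested prefixes are `u = b k / N`, `1 ≤ k ≤ N` -/
def EPath.Succ (p : EPath) (j : Bool) (d d₀ κ₀ ζ : ℝ) (N : ℕ) (s b bs : ℚ) : Prop :=
  |p.G (s + b) - p.G s - d * b| ≤ ζ * b ∧
  ∀ k : ℕ, 1 ≤ k → k ≤ N →
    d₀ * ((b * k / N : ℚ) : ℝ) - ζ * b ≤ p.G (s + b * k / N) - p.G s ∧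
    p.c s (b * k / N) bs ≤ ζ * b ∧
    κ₀ * ((b * k / N : ℚ) : ℝ) - ζ * b ≤ p.h j (b * k / N)

/-- full-to-empty block (H (t:jump)) -/
def EPath.Jump (p : EPath) (η : ℝ) (s b : ℚ) : Prop :=
  |p.G (s + b) - p.G s - b / 2| ≤ η * b ∧ |p.G (s + b / 2) - p.G s - b / 2| ≤ η * b

/-- the monotone 1-Lipschitz extension of the profile to `ℝ` (constant outside `[0,1]`) -/
noncomputable def eExt (G : ℚ → ℝ) (x : ℝ) : ℝ :=
  sSup {y | ∃ s : ℚ, 0 ≤ s ∧ s ≤ 1 ∧ (s : ℝ) ≤ max x 0 ∧ y = G s}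

/-- parameters of the tests attached to one derivative value `d`.   `false` = alternative "`h₂(u) ≥ a u` on the whole grid" (slope `a/2`),
`true` = alternative "`h₂(v) < a v` for a grid point `v`" (then `h₃` has slope `c₁/4` on blocks of length in `[v/4, v]`). -/
structure EPar where
  /-- derivative value -/
  d : ℝ
  /-- angular slopes -/
  κ : Bool → ℝ
  /-- prefix slopes -/
  d₀ : Bool → ℝ
  /-- tolerances of the block test -/
  ζ : Bool → ℝ
  /-- number of tested prefixes -/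
  N : Bool → ℕ
  /-- threshold slope of the angular test -/
  a : ℝ
  /-- the angular test uses the radii `m b₀ / R`, `1 ≤ m ≤ R` -/
  R : ℕ
  /-- candidate blocks have end points in `(b₀/Q) ℤ` -/
  Q : ℕ
  /-- radius of the window of derivative values -/
  tiny : ℝ

/-- numerical relations between the parameters -/
structure EPar.Ok (P : EPar) (c₁ : ℝ) : Prop where
  d_pos : 0 < P.d
  d_lt : P.d < 1
  a_pos : 0 < P.a
  κf : P.κ false = P.a / 2
  κt : P.κ true = c₁ / 4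
  ζ_pos : ∀ j, 0 < P.ζ j
  N_pos : ∀ j, 1 ≤ P.N j
  tiny_pos : 0 < P.tiny
  tiny_d₀ : ∀ j, P.tiny ≤ P.d - P.d₀ j
  tiny_ζ : ∀ j, P.tiny ≤ P.ζ j / 2
  a_le : 4 * P.a ≤ P.ζ true
  R_pos : 1 ≤ P.R
  R_ge : 2 * P.a ≤ P.ζ false * P.R
  Q_ge : ∀ j, 16 * (P.R : ℝ) ≤ P.ζ j * P.Q
  Q_ge' : 12 * P.R ≤ P.Q

/-- cost threshold (relative to `b₀`) -/
noncomputable def EPar.thr (P : EPar) : ℝ := min (P.ζ false) (P.ζ true) / (4 * P.R)

/-- mesh point number `i` at level `k` (`b₀ = 2^{-k}`): `i b₀ / Q` -/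
noncomputable def EPar.pt (P : EPar) (k i : ℕ) : ℚ := (i : ℚ) / ((P.Q : ℚ) * 2 ^ k)

/-- candidate blocks at level `k`: `(i,l)` stands for `[i b₀/Q, (i+l) b₀/Q]`, `1 ≤ l ≤ Q` -/
def EPar.cand (P : EPar) (k : ℕ) : Finset (ℕ × ℕ) :=
  (Finset.range (P.Q * 2 ^ k + 1) ×ˢ Finset.Icc 1 P.Q).filter (fun x => x.1 + x.2 ≤ P.Q * 2 ^ k)

/-- the sum of all costs of a candidate -/
noncomputable def EPath.cost (p : EPath) (P : EPar) (k : ℕ) (x : ℕ × ℕ) : ℝ :=
  ∑ j : Bool, ∑ m ∈ Finset.Icc 1 (P.N j), p.c (P.pt k x.1) (P.pt k x.2 * m / P.N j) (1 / 2 ^ k)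

/-- the total cost of level `k` (H (t:mesh-cost)) -/
noncomputable def EPath.tot (p : EPath) (P : EPar) (k : ℕ) : ℝ := ∑ x ∈ P.cand k, p.cost P k x

/-- the union of the candidates of level `k` that fail the cost test -/
def EPath.bad (p : EPath) (P : EPar) (k : ℕ) : Set ℝ :=
  ⋃ x ∈ (P.cand k).filter (fun x => P.thr / 2 ^ k < p.cost P k x), Icc ((P.pt k x.1 : ℚ) : ℝ) ((P.pt k x.1 + P.pt k x.2 : ℚ) : ℝ)

/-- no test with the parameters `P` and precision `2^{-k}` succeeds on the path -/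
def EPath.NoSucc (p : EPath) (P : EPar) : Prop :=
  ∀ (j : Bool) (k : ℕ) (s b : ℚ), EBlk s b → b ≤ 1 / 2 ^ k →
    ¬ p.Succ j P.d (P.d₀ j) (P.κ j) (P.ζ j) (P.N j) s b (1 / 2 ^ k)

/-- a finite family of disjoint ordered pairs (full point, empty point) -/
def EFam (g : ℝ → ℝ) (S : Finset (ℝ × ℝ)) : Prop :=
  (∀ p ∈ S, 0 < p.1 ∧ p.1 < p.2 ∧ p.2 < 1 ∧ HasDerivAt g 1 p.1 ∧ HasDerivAt g 0 p.2) ∧
  ∀ p ∈ S, ∀ q ∈ S, p ≠ q → p.2 < q.1 ∨ q.2 < p.1

/-- Stores the on-demand equation lemmas of the definitions above in THIS module (rule 6 hygiene). -/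
theorem tr_eng_defs_forced : True := by
  have := @EBlk.eq_1
  have := @EPath.Succ.eq_1
  have := @EPath.Jump.eq_1
  have := @eExt.eq_1
  have := @EPar.thr.eq_1
  have := @EPar.pt.eq_1
  have := @EPar.cand.eq_1
  have := @EPath.cost.eq_1
  have := @EPath.tot.eq_1
  have := @EPath.bad.eq_1
  have := @EPath.NoSucc.eq_1
  have := @EFam.eq_1
  trivial

end Claimed.Agent.R257.TR
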