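import Claimed.Agent.R257.TR.Eng.Path

/-!
# R257 / TR / Eng / Main : the ENGINE, probabilistic part and top theorem       (captain TR: helper217)

Leaves L-TR-E-COST, OM0, PAR, TOP.
-/

set_option autoImplicit false

namespace Claimed.Agent.R257.TR

open MeasureTheory Set Filter Topology
open scoped ENNReal

variable {Ω : Type} [MeasurableSpace Ω]

/-- E3: costs along an arithmetic chain of step `bs` -/
def ECostHyp (μ : Measure Ω) (X : Ω → EPath) (Cc : ℝ) : Prop :=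
  ∀ (bs s₀ t : ℚ) (K : ℕ), 0 < bs → bs ≤ 1 → 0 ≤ s₀ → 0 < t → t ≤ bs → (∀ k < K, s₀ + k * bs + t ≤ 1) →
    ∑ k ∈ Finset.range K, ∫⁻ ω, ENNReal.ofReal ((X ω).c (s₀ + k * bs) t bs) ∂μ ≤ ENNReal.ofReal (Cc * bs)

/-- E4: the projection block test -/
def EBlockHyp (μ : Measure Ω) (X : Ω → EPath) : Prop :=
  ∀ d d₀ κ₀ : ℝ, 0 < d → d < 1 → 0 < d₀ → 0 < κ₀ → d < d₀ + κ₀ →
    ∃ ζ : ℝ, 0 < ζ ∧ ∃ N : ℕ, 1 ≤ N ∧ ∀ (j : Bool) (s b bs : ℚ), EBlk s b → b ≤ bs → bs ≤ 1 →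
      ∀ᵐ ω ∂μ, ¬ (X ω).Succ j d d₀ κ₀ ζ N s b bs

/-- E5: no full-to-empty block -/
def EJumpHyp (μ : Measure Ω) (X : Ω → EPath) : Prop :=
  ∃ η : ℝ, 0 < η ∧ ∀ s b : ℚ, EBlk s b → ∀ᵐ ω ∂μ, ¬ (X ω).Jump η s b

/-- splitting of `range (Q * N)` into `N` blocks of length `Q` -/
theorem tr_cost_split (G : ℕ → ℝ≥0∞) (Q : ℕ) : ∀ N : ℕ, ∑ i ∈ Finset.range (Q * N), G i = ∑ κ ∈ Finset.range N, ∑ r ∈ Finset.range Q, G (Q * κ + r)
  | 0 => by simp
  | N + 1 => by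
      rw [Nat.mul_succ, Finset.sum_range_add, tr_cost_split G Q N, Finset.sum_range_succ]

/-- one residue class -/
theorem tr_cost_chain (μ : Measure Ω) (X : Ω → EPath) (Cc : ℝ) (hE3 : ECostHyp μ X Cc) (P : EPar) (hQ : 1 ≤ P.Q) (k l r : ℕ) (t : ℚ)
    (hl : l ≤ P.Q) (hr : r < P.Q) (ht0 : 0 < t) (ht : t ≤ P.pt k l) :
    ∑ κ ∈ Finset.range (2 ^ k), (if P.Q * κ + r + l ≤ P.Q * 2 ^ k then ∫⁻ ω, ENNReal.ofReal ((X ω).c (P.pt k (P.Q * κ + r)) t (1 / 2 ^ k)) ∂μ else 0)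
      ≤ ENNReal.ofReal (Cc / 2 ^ k) := by
  have hQ0 : (0:ℚ) < (P.Q : ℚ) := by exact_mod_cast hQ
  have h2k : (0:ℚ) < 2 ^ k := by positivity
  set K : ℕ := if r + l ≤ P.Q then 2 ^ k else 2 ^ k - 1 with hK
  have hpt : ∀ κ : ℕ, P.pt k (P.Q * κ + r) = P.pt k r + κ * (1 / 2 ^ k) := by
    intro κ
    unfold EPar.pt
    push_cast
    field_simp
    ring
  have hgood : ∀ κ < K, P.Q * κ + r + l ≤ P.Q * 2 ^ k := by
    intro κ hκ
    by_cases hrl : r + l ≤ P.Q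
    · rw [hK, if_pos hrl] at hκ
      have : P.Q * (κ + 1) ≤ P.Q * 2 ^ k := Nat.mul_le_mul_left _ hκ
      rw [Nat.mul_succ] at this
      omega
    · rw [hK, if_neg hrl] at hκ
      have : P.Q * (κ + 2) ≤ P.Q * 2 ^ k := Nat.mul_le_mul_left _ (by omega)
      have e : P.Q * (κ + 2) = P.Q * κ + P.Q + P.Q := by ring
      omega
  have hsub : (Finset.range (2 ^ k)).filter (fun κ => P.Q * κ + r + l ≤ P.Q * 2 ^ k) ⊆ Finset.range K := by
    intro κ hκ
    rw [Finset.mem_filter, Finset.mem_range] at hκ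
    rw [Finset.mem_range]
    by_cases hrl : r + l ≤ P.Q
    · rw [hK, if_pos hrl]; exact hκ.1
    · rw [hK, if_neg hrl]
      by_contra hcon
      have e1 : κ + 1 = 2 ^ k := by omega
      have e2 : P.Q * (κ + 1) = P.Q * 2 ^ k := by rw [e1]
      rw [Nat.mul_succ] at e2
      omega
  rw [← Finset.sum_filter]
  refine (Finset.sum_le_sum_of_subset hsub).trans ?_
  have hb1 : (1:ℚ) / 2 ^ k ≤ 1 := by
    rw [div_le_one h2k]; exact one_le_pow₀ (by norm_num)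
  have hptl : P.pt k l ≤ 1 / 2 ^ k := by
    unfold EPar.pt
    rw [div_le_div_iff₀ (by positivity) h2k]
    have : (l:ℚ) ≤ P.Q := by exact_mod_cast hl
    nlinarith
  have h := hE3 (1 / 2 ^ k) (P.pt k r) t K (by positivity) hb1 (by unfold EPar.pt; positivity) ht0 (ht.trans hptl) (by
    intro κ hκ
    have h1 := hgood κ hκ
    rw [← hpt κ]
    have h2 : P.pt k (P.Q * κ + r) + P.pt k l ≤ 1 := by
      unfold EPar.pt
      rw [← add_div, div_le_one (by positivity)]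
      exact_mod_cast h1
    linarith)
  simp only [hpt]
  refine h.trans (le_of_eq ?_)
  congr 1
  push_cast
  ring

/-- all starting points, one length -/
theorem tr_cost_len (μ : Measure Ω) (X : Ω → EPath) (Cc : ℝ) (hE3 : ECostHyp μ X Cc) (P : EPar) (hQ : 1 ≤ P.Q) (k l : ℕ) (t : ℚ)
    (hl1 : 1 ≤ l) (hl : l ≤ P.Q) (ht0 : 0 < t) (ht : t ≤ P.pt k l) :
    ∑ i ∈ Finset.range (P.Q * 2 ^ k + 1), (if i + l ≤ P.Q * 2 ^ k then ∫⁻ ω, ENNReal.ofReal ((X ω).c (P.pt k i) t (1 / 2 ^ k)) ∂μ else 0)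
      ≤ P.Q * ENNReal.ofReal (Cc / 2 ^ k) := by
  rw [Finset.sum_range_succ, if_neg (by omega), add_zero,
    tr_cost_split (fun i => if i + l ≤ P.Q * 2 ^ k then ∫⁻ ω, ENNReal.ofReal ((X ω).c (P.pt k i) t (1 / 2 ^ k)) ∂μ else 0) P.Q (2 ^ k),
    Finset.sum_comm]
  calc _ ≤ ∑ _r ∈ Finset.range P.Q, ENNReal.ofReal (Cc / 2 ^ k) :=
        Finset.sum_le_sum fun r hr => tr_cost_chain μ X Cc hE3 P hQ k l r t hl (Finset.mem_range.1 hr) ht0 ht
    _ = _ := by simp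

/-- all candidates, one tested prefix -/
theorem tr_cost_cand (μ : Measure Ω) (X : Ω → EPath) (Cc : ℝ) (hE3 : ECostHyp μ X Cc) (P : EPar) (hQ : 1 ≤ P.Q) (k : ℕ) (j : Bool) (m : ℕ)
    (hm1 : 1 ≤ m) (hm : m ≤ P.N j) :
    ∑ x ∈ P.cand k, ∫⁻ ω, ENNReal.ofReal ((X ω).c (P.pt k x.1) (P.pt k x.2 * m / P.N j) (1 / 2 ^ k)) ∂μ
      ≤ P.Q * (P.Q * ENNReal.ofReal (Cc / 2 ^ k)) := by
  unfold EPar.cand
  rw [Finset.sum_filter, Finset.sum_product_right]
  have hQ0 : (0:ℚ) < (P.Q : ℚ) := by exact_mod_cast hQ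
  have hm0 : (0:ℚ) < (m : ℚ) := by exact_mod_cast hm1
  have hN0 : (0:ℚ) < (P.N j : ℚ) := by exact_mod_cast (hm1.trans hm)
  have hmN : (m:ℚ) ≤ (P.N j : ℚ) := by exact_mod_cast hm
  calc _ ≤ ∑ _l ∈ Finset.Icc 1 P.Q, (P.Q : ℝ≥0∞) * ENNReal.ofReal (Cc / 2 ^ k) := by
        apply Finset.sum_le_sum
        intro l hl
        rw [Finset.mem_Icc] at hl
        have hl0 : (0:ℚ) < (l : ℚ) := by exact_mod_cast hl.1
        have hpt0 : 0 < P.pt k l := by unfold EPar.pt; positivity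
        refine tr_cost_len μ X Cc hE3 P hQ k l (P.pt k l * m / P.N j) hl.1 hl.2 (by positivity) ?_
        rw [div_le_iff₀ hN0]
        exact mul_le_mul_of_nonneg_left hmN hpt0.le
    _ = _ := by simp

/-- **(t:mesh-cost)**.  PLAN: for fixed `(l, j, m)` the prefixes `[i b₀/Q, i b₀/Q + t]`, `t = l b₀ m/(Q N_j) ≤ b₀`, split into the `Q` residue classes of `i` mod `Q`; each class is an arithmetic chain of step `b₀ = bs`. -/
theorem tr_eng_cost (μ : Measure Ω) (X : Ω → EPath) (Cc : ℝ) (hCc : 0 ≤ Cc)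
    (hmeas : ∀ s t bs : ℚ, Measurable (fun ω => (X ω).c s t bs)) (h0 : ∀ ω s t bs, 0 ≤ (X ω).c s t bs)
    (hE3 : ECostHyp μ X Cc) (P : EPar) (hQ : 1 ≤ P.Q) (hN : ∀ j, 1 ≤ P.N j) (k : ℕ) :
    ∫⁻ ω, ENNReal.ofReal ((X ω).tot P k) ∂μ ≤ ENNReal.ofReal (Cc * (P.Q : ℝ) ^ 2 * ((P.N false : ℝ) + P.N true) / 2 ^ k) := by
  have e : ∀ ω, ENNReal.ofReal ((X ω).tot P k) = ∑ x ∈ P.cand k, ∑ j : Bool, ∑ m ∈ Finset.Icc 1 (P.N j),
      ENNReal.ofReal ((X ω).c (P.pt k x.1) (P.pt k x.2 * m / P.N j) (1 / 2 ^ k)) := by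
    intro ω
    unfold EPath.tot EPath.cost
    rw [ENNReal.ofReal_sum_of_nonneg fun x _ => Finset.sum_nonneg fun j _ => Finset.sum_nonneg fun m _ => h0 _ _ _ _]
    refine Finset.sum_congr rfl fun x _ => ?_
    rw [ENNReal.ofReal_sum_of_nonneg fun j _ => Finset.sum_nonneg fun m _ => h0 _ _ _ _]
    refine Finset.sum_congr rfl fun j _ => ?_
    rw [ENNReal.ofReal_sum_of_nonneg fun m _ => h0 _ _ _ _]
  simp only [e]
  rw [lintegral_finsetSum _ fun x _ => Finset.measurable_fun_sum _ fun j _ => Finset.measurable_fun_sum _ fun m _ => (hmeas _ _ _).ennreal_ofReal]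
  have e2 : ∀ x ∈ P.cand k, ∫⁻ ω, ∑ j : Bool, ∑ m ∈ Finset.Icc 1 (P.N j), ENNReal.ofReal ((X ω).c (P.pt k x.1) (P.pt k x.2 * m / P.N j) (1 / 2 ^ k)) ∂μ =
      ∑ j : Bool, ∑ m ∈ Finset.Icc 1 (P.N j), ∫⁻ ω, ENNReal.ofReal ((X ω).c (P.pt k x.1) (P.pt k x.2 * m / P.N j) (1 / 2 ^ k)) ∂μ := by
    intro x _
    rw [lintegral_finsetSum _ fun j _ => Finset.measurable_fun_sum _ fun m _ => (hmeas _ _ _).ennreal_ofReal]
    refine Finset.sum_congr rfl fun j _ => ?_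
    rw [lintegral_finsetSum _ fun m _ => (hmeas _ _ _).ennreal_ofReal]
  rw [Finset.sum_congr rfl e2, Finset.sum_comm]
  calc _ ≤ ∑ j : Bool, ∑ _m ∈ Finset.Icc 1 (P.N j), (P.Q : ℝ≥0∞) * (P.Q * ENNReal.ofReal (Cc / 2 ^ k)) := by
        apply Finset.sum_le_sum
        intro j _
        rw [Finset.sum_comm]
        apply Finset.sum_le_sum
        intro m hm
        rw [Finset.mem_Icc] at hm
        exact tr_cost_cand μ X Cc hE3 P hQ k j m hm.1 hm.2
    _ = _ := by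
        simp only [Finset.sum_const, Nat.card_Icc, Nat.add_sub_cancel, Fintype.sum_bool, nsmul_eq_mul]
        rw [← ENNReal.ofReal_natCast (P.N true), ← ENNReal.ofReal_natCast (P.N false), ← ENNReal.ofReal_natCast P.Q,
          ← ENNReal.ofReal_mul (by positivity), ← ENNReal.ofReal_mul (by positivity), ← ENNReal.ofReal_mul (by positivity),
          ← ENNReal.ofReal_mul (by positivity), ← ENNReal.ofReal_add (by positivity) (by positivity)]
        congr 1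
        ring

theorem tr_om0_tot_meas (X : Ω → EPath) (hmeas : ∀ s t bs : ℚ, Measurable (fun ω => (X ω).c s t bs)) (P : EPar) (k : ℕ) :
    Measurable fun ω => (X ω).tot P k := by
  unfold EPath.tot EPath.cost
  refine Finset.measurable_fun_sum _ fun x _ => Finset.measurable_fun_sum _ fun j _ => Finset.measurable_fun_sum _ fun m _ => hmeas _ _ _

theorem tr_om0_tot_nonneg (X : Ω → EPath) (h0 : ∀ ω s t bs, 0 ≤ (X ω).c s t bs) (P : EPar) (k : ℕ) (ω : Ω) : 0 ≤ (X ω).tot P k := by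
  unfold EPath.tot EPath.cost
  exact Finset.sum_nonneg fun x _ => Finset.sum_nonneg fun j _ => Finset.sum_nonneg fun m _ => h0 _ _ _ _

/-- the full-measure event (Tonelli for the series, Fatou for the liminf) -/
theorem tr_eng_om0 (μ : Measure Ω) [IsProbabilityMeasure μ] (X : Ω → EPath) (Cc : ℝ) (hCc : 0 ≤ Cc)
    (hmeas : ∀ s t bs : ℚ, Measurable (fun ω => (X ω).c s t bs)) (h0 : ∀ ω s t bs, 0 ≤ (X ω).c s t bs)
    (hE3 : ECostHyp μ X Cc) (P : EPar) (hQ : 1 ≤ P.Q) (hN : ∀ j, 1 ≤ P.N j) :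
    ∀ᵐ ω ∂μ, Summable (fun k => (X ω).tot P k) ∧ ∃ B : ℝ, ∃ᶠ k : ℕ in atTop, (X ω).tot P k * 2 ^ k ≤ B := by
  set A : ℝ := Cc * (P.Q : ℝ) ^ 2 * ((P.N false : ℝ) + P.N true) with hA
  have hA0 : 0 ≤ A := by positivity
  have hcost := fun k => tr_eng_cost μ X Cc hCc hmeas h0 hE3 P hQ hN k
  have hm := tr_om0_tot_meas X hmeas P
  have hnn := tr_om0_tot_nonneg X h0 P
  -- the series
  have hgeo : Summable fun k : ℕ => A / 2 ^ k := by
    have := (summable_geometric_two).mul_left A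
    refine this.congr fun k => ?_
    rw [one_div, inv_pow, div_eq_mul_inv]
  have h1 : ∫⁻ ω, ∑' k, ENNReal.ofReal ((X ω).tot P k) ∂μ ≠ ⊤ := by
    rw [lintegral_tsum fun k => (hm k).ennreal_ofReal.aemeasurable]
    apply ne_top_of_le_ne_top _ (ENNReal.tsum_le_tsum hcost)
    rw [← ENNReal.ofReal_tsum_of_nonneg (fun k => by positivity) hgeo]
    exact ENNReal.ofReal_ne_top
  have h2 : ∀ᵐ ω ∂μ, ∑' k, ENNReal.ofReal ((X ω).tot P k) < ⊤ :=
    ae_lt_top (Measurable.tsum fun k => (hm k).ennreal_ofReal) h1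
  -- the liminf
  have h3 : ∀ k, ∫⁻ ω, ENNReal.ofReal ((X ω).tot P k * 2 ^ k) ∂μ ≤ ENNReal.ofReal A := by
    intro k
    have e : ∀ ω, ENNReal.ofReal ((X ω).tot P k * 2 ^ k) = ENNReal.ofReal ((X ω).tot P k) * ENNReal.ofReal (2 ^ k) :=
      fun ω => ENNReal.ofReal_mul (hnn k ω)
    simp only [e]
    rw [lintegral_mul_const _ (hm k).ennreal_ofReal]
    calc _ ≤ ENNReal.ofReal (A / 2 ^ k) * ENNReal.ofReal (2 ^ k) := by gcongr; exact hcost k
      _ = ENNReal.ofReal A := by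
        rw [← ENNReal.ofReal_mul (by positivity)]
        congr 1
        field_simp
  have h4 : ∫⁻ ω, liminf (fun k : ℕ => ENNReal.ofReal ((X ω).tot P k * 2 ^ k)) atTop ∂μ ≠ ⊤ := by
    apply ne_top_of_le_ne_top (ENNReal.ofReal_ne_top (r := A))
    refine (lintegral_liminf_le fun k => ((hm k).mul_const _).ennreal_ofReal).trans ?_
    exact liminf_le_of_frequently_le (Frequently.of_forall h3)
  have h5 : ∀ᵐ ω ∂μ, liminf (fun k : ℕ => ENNReal.ofReal ((X ω).tot P k * 2 ^ k)) atTop < ⊤ :=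
    ae_lt_top (Measurable.liminf fun k => ((hm k).mul_const _).ennreal_ofReal) h4
  filter_upwards [h2, h5] with ω a1 a2
  constructor
  · have := ENNReal.summable_toReal a1.ne
    refine this.congr fun k => ?_
    rw [ENNReal.toReal_ofReal (hnn k ω)]
  · obtain ⟨r, hr1, -⟩ := ENNReal.lt_iff_exists_nnreal_btwn.1 a2
    refine ⟨r, (frequently_lt_of_liminf_lt (by isBoundedDefault) hr1).mono fun k hk => ?_⟩
    have hk0 : 0 ≤ (X ω).tot P k * 2 ^ k := mul_nonneg (hnn k ω) (by positivity)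
    have := (ENNReal.ofReal_lt_iff_lt_toReal hk0 ENNReal.coe_ne_top).1 hk
    simpa using this.le

/-- choice of the parameters for one derivative value.
ORDER: `κ true = c₁/4`, `d₀ true = max (d/2) (d - c₁/8)`, `(ζ true, N true)` from E4; `a = min (ζ true/4) 1`; `κ false = a/2`, `d₀ false = max (d/2) (d - a/4)`, `(ζ false, N false)` from E4;
`R ≥ 2a/ζ false`; `Q ≥ 12 R, 16 R/ζ_j`; `tiny = min (d - d₀ j) (ζ j/2)`.  `NoSucc` = countable intersection of the null events of E4. -/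
theorem tr_eng_par (μ : Measure Ω) (X : Ω → EPath) (c₁ : ℝ) (hc : 0 < c₁) (hE4 : EBlockHyp μ X) (d : ℝ) (hd0 : 0 < d) (hd1 : d < 1) :
    ∃ P : EPar, P.Ok c₁ ∧ P.d = d ∧ ∀ᵐ ω ∂μ, (X ω).NoSucc P := by
  obtain ⟨ζt, hζt, Nt, hNt, ht⟩ := hE4 d (max (d / 2) (d - c₁ / 8)) (c₁ / 4) hd0 hd1 (lt_max_of_lt_left (by positivity)) (by positivity)
    (by linarith [le_max_right (d / 2) (d - c₁ / 8)])
  set a : ℝ := min (ζt / 4) 1 with ha
  have ha0 : 0 < a := lt_min (by positivity) one_pos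
  obtain ⟨ζf, hζf, Nf, hNf, hf⟩ := hE4 d (max (d / 2) (d - a / 4)) (a / 2) hd0 hd1 (lt_max_of_lt_left (by positivity)) (by positivity)
    (by linarith [le_max_right (d / 2) (d - a / 4)])
  set R : ℕ := ⌈2 * a / ζf⌉₊ + 1 with hR
  set Q : ℕ := 12 * R + ⌈16 * (R : ℝ) / ζf⌉₊ + ⌈16 * (R : ℝ) / ζt⌉₊ with hQ
  set d₀ : Bool → ℝ := fun j => if j then max (d / 2) (d - c₁ / 8) else max (d / 2) (d - a / 4) with hd₀
  set ζ : Bool → ℝ := fun j => if j then ζt else ζf with hζ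
  set tiny : ℝ := min (min (d - d₀ true) (ζ true / 2)) (min (d - d₀ false) (ζ false / 2)) with htiny
  have hdt : 0 < d - d₀ true := by
    simp only [hd₀, if_true]
    have : max (d / 2) (d - c₁ / 8) < d := max_lt (by linarith) (by linarith)
    linarith
  have hdf : 0 < d - d₀ false := by
    simp only [hd₀, Bool.false_eq_true, if_false]
    have : max (d / 2) (d - a / 4) < d := max_lt (by linarith) (by linarith)
    linarith
  refine ⟨⟨d, fun j => if j then c₁ / 4 else a / 2, d₀, ζ, fun j => if j then Nt else Nf, a, R, Q, tiny⟩, ?_, rfl, ?_⟩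
  · refine ⟨hd0, hd1, ha0, by simp, by simp, ?_, ?_, ?_, ?_, ?_, ?_, ?_, ?_, ?_, ?_⟩
    · intro j; cases j <;> simp [hζ, hζt, hζf]
    · intro j; cases j <;> simp [hNt, hNf]
    · exact lt_min (lt_min hdt (by simp [hζ, hζt])) (lt_min hdf (by simp [hζ, hζf]))
    · intro j
      cases j
      · exact (min_le_right _ _).trans (min_le_left _ _)
      · exact (min_le_left _ _).trans (min_le_left _ _)
    · intro j
      cases j
      · exact (min_le_right _ _).trans (min_le_right _ _)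
      · exact (min_le_left _ _).trans (min_le_right _ _)
    · have : a ≤ ζt / 4 := min_le_left _ _
      simp only [hζ, if_true]
      linarith
    · simp [hR]
    · have h1 : 2 * a / ζf ≤ (R : ℝ) := by
        rw [hR]; push_cast
        linarith [Nat.le_ceil (2 * a / ζf)]
      rw [div_le_iff₀ hζf] at h1
      simp only [hζ, Bool.false_eq_true, if_false]
      linarith
    · intro j
      have hR0 : (0:ℝ) ≤ (R : ℝ) := Nat.cast_nonneg _
      cases j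
      · have h1 : 16 * (R : ℝ) / ζf ≤ (Q : ℝ) := by
          rw [hQ]; push_cast
          have := Nat.le_ceil (16 * (R : ℝ) / ζf)
          have h2 : (0:ℝ) ≤ (⌈16 * (R : ℝ) / ζt⌉₊ : ℝ) := Nat.cast_nonneg _
          linarith
        rw [div_le_iff₀ hζf] at h1
        simp only [hζ, Bool.false_eq_true, if_false]
        linarith
      · have h1 : 16 * (R : ℝ) / ζt ≤ (Q : ℝ) := by
          rw [hQ]; push_cast
          have := Nat.le_ceil (16 * (R : ℝ) / ζt)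
          have h2 : (0:ℝ) ≤ (⌈16 * (R : ℝ) / ζf⌉₊ : ℝ) := Nat.cast_nonneg _
          linarith
        rw [div_le_iff₀ hζt] at h1
        simp only [hζ, if_true]
        linarith
    · show 12 * R ≤ Q
      rw [hQ]; omega
  · unfold EPath.NoSucc
    rw [ae_all_iff]; intro j
    rw [ae_all_iff]; intro k
    rw [ae_all_iff]; intro s
    rw [ae_all_iff]; intro b
    apply eventually_imp_distrib_left.2; intro hB
    apply eventually_imp_distrib_left.2; intro hb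
    have hk1 : (1:ℚ) / 2 ^ k ≤ 1 := by
      rw [div_le_one (by positivity)]
      exact one_le_pow₀ (by norm_num)
    cases j
    · simpa [hd₀, hζ] using hf false s b (1 / 2 ^ k) hB hb hk1
    · simpa [hd₀, hζ] using ht true s b (1 / 2 ^ k) hB hb hk1

/-- **THE ENGINE** (H t:angular-alternatives + t:alternation + end of the proof of t:transverse).
GLUE: `Pd d` from `tr_eng_par` (choice), `D` from `tr_eng_cover` (add `1/2`), countable intersection of the a.e. events (`Reg`, `NoSucc`, `tr_eng_om0`, E5 over all rational blocks); the intersection is nonempty; `tr_eng_path`. -/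
theorem tr_engine (μ : Measure Ω) [IsProbabilityMeasure μ] (X : Ω → EPath) (θ c₁ Cc : ℝ)
    (hθ0 : 0 < θ) (hθ1 : θ < 1) (hc : 0 < c₁) (hCc : 0 ≤ Cc)
    (hmeas : ∀ s t bs : ℚ, Measurable (fun ω => (X ω).c s t bs)) (h0 : ∀ ω s t bs, 0 ≤ (X ω).c s t bs)
    (hE1 : ∀ᵐ ω ∂μ, (X ω).Reg θ c₁) (hE3 : ECostHyp μ X Cc) (hE4 : EBlockHyp μ X) (hE5 : EJumpHyp μ X) : False := by
  classical
  have hex : ∀ d : ℝ, ∃ P : EPar, d ∈ Ioo (0:ℝ) 1 → (P.Ok c₁ ∧ P.d = d ∧ ∀ᵐ ω ∂μ, (X ω).NoSucc P) := by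
    intro d
    by_cases hd : d ∈ Ioo (0:ℝ) 1
    · obtain ⟨P, hP⟩ := tr_eng_par μ X c₁ hc hE4 d hd.1 hd.2
      exact ⟨P, fun _ => hP⟩
    · exact ⟨⟨0, fun _ => 0, fun _ => 0, fun _ => 0, fun _ => 0, 0, 0, 0, 0⟩, fun h => absurd h hd⟩
  choose Pd hPd using hex
  obtain ⟨D, hD, hDsub, hcov⟩ := tr_eng_cover (fun d => (Pd d).tiny) (fun d hd => (hPd d hd).1.tiny_pos)
  obtain ⟨η, hη, hjump⟩ := hE5
  have hhalf : (1 / 2 : ℝ) ∈ Ioo (0:ℝ) 1 := by constructor <;> norm_num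
  have hom : ∀ d ∈ Ioo (0:ℝ) 1, ∀ᵐ ω ∂μ, Summable (fun k => (X ω).tot (Pd d) k) ∧ ∃ B : ℝ, ∃ᶠ k : ℕ in atTop, (X ω).tot (Pd d) k * 2 ^ k ≤ B :=
    fun d hd => tr_eng_om0 μ X Cc hCc hmeas h0 hE3 (Pd d) (tr_Q_pos _ (hPd d hd).1) (hPd d hd).1.N_pos
  have a1 : ∀ᵐ ω ∂μ, ∀ d ∈ D, (X ω).NoSucc (Pd d) ∧ Summable (fun k => (X ω).tot (Pd d) k) :=
    (ae_ball_iff hD).2 fun d hd => by
      filter_upwards [(hPd d (hDsub hd)).2.2, hom d (hDsub hd)] with ω b1 b2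
      exact ⟨b1, b2.1⟩
  have a2 : ∀ᵐ ω ∂μ, ∀ s t : ℚ, EBlk s t → ¬ (X ω).Jump η s t := by
    rw [ae_all_iff]; intro s
    rw [ae_all_iff]; intro t
    exact eventually_imp_distrib_left.2 (hjump s t)
  obtain ⟨ω, hreg, b1, b2, b3, b4⟩ := (hE1.and (a1.and (a2.and ((hPd _ hhalf).2.2.and (hom _ hhalf))))).exists
  obtain ⟨B, hB⟩ := b4.2
  exact tr_eng_path hreg hc hθ0 hθ1 Pd D hD hcov
    (fun d hd => ⟨(hPd d (hDsub hd)).1, (hPd d (hDsub hd)).2.1, (b1 d hd).1, (b1 d hd).2⟩)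
    ⟨(hPd _ hhalf).1, (hPd _ hhalf).2.1, b3⟩ B hB η hη b2

/-- Stores the on-demand equation lemmas of the definitions above in THIS module (rule 6 hygiene). -/
theorem tr_eng_main_forced : True := by
  have := @ECostHyp.eq_1
  have := @EBlockHyp.eq_1
  have := @EJumpHyp.eq_1
  trivial

end Claimed.Agent.R257.TR
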