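import Claimed.Agent.R257.TR.Eng.Real

/-!
# R257 / TR / Eng / Path : the ENGINE on one path (deterministic, Mathlib only)       (captain TR: helper217)

Leaves L-TR-E-EXT, ALT, LOCAL, BADVOL, BIN, PAIR, COUNT, RAT.   Notation: `b₀ = 2^{-k}`, mesh `b₀/Q`, `g = eExt p.G`.
-/

set_option autoImplicit false

namespace Claimed.Agent.R257.TR

open MeasureTheory Set Filter Topology
open scoped ENNReal

variable {p : EPath} {θ c₁ : ℝ}

theorem tr_eExt_bdd (hp : p.Reg θ c₁) (x : ℝ) :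
    BddAbove {y | ∃ s : ℚ, 0 ≤ s ∧ s ≤ 1 ∧ (s : ℝ) ≤ max x 0 ∧ y = p.G s} := by
  refine ⟨p.G 1, ?_⟩
  rintro y ⟨s, h0, h1, -, rfl⟩
  exact hp.mono s 1 h0 h1 le_rfl

theorem tr_eExt_ge (hp : p.Reg θ c₁) (x : ℝ) (s : ℚ) (h0 : 0 ≤ s) (h1 : s ≤ 1) (hs : (s : ℝ) ≤ max x 0) : p.G s ≤ eExt p.G x :=
  le_csSup (tr_eExt_bdd hp x) ⟨s, h0, h1, hs, rfl⟩

theorem tr_eExt_le (hp : p.Reg θ c₁) (x B : ℝ) (h : ∀ s : ℚ, 0 ≤ s → s ≤ 1 → (s : ℝ) ≤ max x 0 → p.G s ≤ B) : eExt p.G x ≤ B := by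
  refine csSup_le ⟨p.G 0, 0, le_rfl, zero_le_one, by simp, rfl⟩ ?_
  rintro y ⟨s, h0, h1, hs, rfl⟩
  exact h s h0 h1 hs

theorem tr_eExt_step (hp : p.Reg θ c₁) (x y : ℝ) (hxy : x ≤ y) : eExt p.G y ≤ eExt p.G x + (y - x) := by
  refine tr_eExt_le hp _ _ fun s h0 h1 hs => ?_
  have hmm : max y 0 - max x 0 ≤ y - x := by
    rcases le_total x 0 with h | h
    · rw [max_eq_right h]
      rcases le_total y 0 with h' | h'
      · rw [max_eq_right h']
        linarith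
      · rw [max_eq_left h']
        linarith
    · rw [max_eq_left h, max_eq_left (h.trans hxy)]
  by_contra hcon
  push Not at hcon
  -- `c := eExt x - G s + s < max x 0`
  have hc : eExt p.G x - p.G s + s < max x 0 := by linarith
  have hall : ∀ q : ℚ, 0 ≤ q → (q : ℝ) ≤ max x 0 → (q : ℝ) ≤ s → (q : ℝ) ≤ eExt p.G x - p.G s + s := by
    intro q hq0 hq hqs
    have hqs' : q ≤ s := by exact_mod_cast hqs
    have h2 := hp.lip q s hq0 hqs' h1
    have h3 := tr_eExt_ge hp x q hq0 (hqs'.trans h1) hq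
    linarith
  have hs0 : (0 : ℝ) ≤ s := by exact_mod_cast h0
  have hc0 : 0 ≤ eExt p.G x - p.G s + s := by
    have := hall 0 le_rfl (by simp) (by simpa using hs0)
    simpa using this
  by_cases hsx : (s : ℝ) ≤ max x 0
  · have := tr_eExt_ge hp x s h0 h1 hsx
    linarith
  · push Not at hsx
    obtain ⟨q, hq1, hq2⟩ := exists_rat_btwn hc
    have hq0 : 0 ≤ q := by
      have : (0 : ℝ) ≤ q := hc0.trans hq1.le
      exact_mod_cast this
    have := hall q hq0 hq2.le (hq2.le.trans hsx.le)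
    linarith

theorem tr_eExt_rat (hp : p.Reg θ c₁) (s : ℚ) (h0 : 0 ≤ s) (h1 : s ≤ 1) : eExt p.G (s : ℝ) = p.G s := by
  have hs0 : (0 : ℝ) ≤ s := by exact_mod_cast h0
  refine le_antisymm (tr_eExt_le hp _ _ fun s' h0' h1' hs' => ?_) (tr_eExt_ge hp _ s h0 h1 (le_max_left _ _))
  rw [max_eq_left hs0] at hs'
  exact hp.mono s' s h0' (by exact_mod_cast hs') h1

theorem tr_eExt_mono (hp : p.Reg θ c₁) : Monotone (eExt p.G) := by
  intro x y hxy
  exact tr_eExt_le hp _ _ fun s h0 h1 hs => tr_eExt_ge hp y s h0 h1 (hs.trans (max_le_max hxy le_rfl))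

theorem tr_eExt_lip (hp : p.Reg θ c₁) : LipschitzWith 1 (eExt p.G) := by
  refine LipschitzWith.of_dist_le_mul fun x y => ?_
  rw [NNReal.coe_one, one_mul, Real.dist_eq, Real.dist_eq]
  rcases le_total x y with h | h
  · have h1 := tr_eExt_step hp x y h
    have h2 := tr_eExt_mono hp h
    rw [abs_sub_comm, abs_of_nonneg (by linarith), abs_sub_comm, abs_of_nonneg (by linarith)]
    linarith
  · have h1 := tr_eExt_step hp y x h
    have h2 := tr_eExt_mono hp h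
    rw [abs_of_nonneg (by linarith), abs_of_nonneg (by linarith)]
    linarith

theorem tr_eExt_low (hp : p.Reg θ c₁) (hθ : 0 ≤ θ) : ∀ s ∈ Icc (0 : ℝ) 1, θ * s ≤ eExt p.G s := by
  intro s hs
  by_contra hcon
  push Not at hcon
  have he0 : 0 ≤ eExt p.G s := by
    have := tr_eExt_ge hp s 0 le_rfl zero_le_one (by simp)
    rwa [hp.G0] at this
  have hθ0 : 0 < θ := by
    rcases eq_or_lt_of_le hθ with h | h
    · rw [← h] at hcon
      linarith
    · exact h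
  have h1 : eExt p.G s / θ < s := by
    rw [div_lt_iff₀ hθ0]
    linarith
  obtain ⟨q, hq1, hq2⟩ := exists_rat_btwn h1
  have hq0' : (0 : ℝ) ≤ q := le_trans (by positivity) hq1.le
  have hq0 : 0 ≤ q := by exact_mod_cast hq0'
  have hq1' : q ≤ 1 := by
    have : (q : ℝ) ≤ 1 := hq2.le.trans hs.2
    exact_mod_cast this
  have h2 := hp.low q hq0 hq1'
  have h3 := tr_eExt_ge hp s q hq0 hq1' (hq2.le.trans (le_max_left _ _))
  rw [div_lt_iff₀ hθ0] at hq1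
  linarith

/-- **Finite angular alternatives** (H t:angular-alternatives, U1).
PLAN.  If `a (m b₀/R) ≤ h₂(m b₀/R)` for all `1 ≤ m ≤ R`: `j = false`, `m = R`: for `u ≥ b₀/R` take the grid point `v ≤ u < 2v`, `h₂ u ≥ h₂ v ≥ a v ≥ (a/2) u`; for `u < b₀/R`: `h₂ u ≥ 0 ≥ (a/2)u - (a/2) b₀/R ≥ (a/2) u - ζ b₀/4` (`R_ge`).
Otherwise `h₂ v < a v` for some `v = m b₀/R`: `j = true`: for `u ≤ b ≤ v`, `v ≤ 4b`: `h₃ u ≥ c₁ u - h₂ u ≥ c₁ u - h₂ v > c₁ u - a v ≥ (c₁/4) u - 4 a b` (`a_le`). -/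
theorem tr_eng_alt (hp : p.Reg θ c₁) (hc : 0 < c₁) (P : EPar) (hP : P.Ok c₁) (b₀ : ℚ) (h0 : 0 < b₀) (h1 : b₀ < 1 / 8) :
    ∃ (j : Bool) (m : ℕ), 1 ≤ m ∧ m ≤ P.R ∧ ∀ b u : ℚ, (m * b₀ / P.R) / 4 ≤ b → b ≤ m * b₀ / P.R → 0 < u → u ≤ b →
      P.κ j * u - P.ζ j * b ≤ p.h j u := by
  have hR : (0 : ℚ) < P.R := by exact_mod_cast hP.R_pos
  have hRr : (0 : ℝ) < P.R := by exact_mod_cast hP.R_pos
  have h0r : (0 : ℝ) < b₀ := by exact_mod_cast h0
  by_cases hA : ∀ m : ℕ, 1 ≤ m → m ≤ P.R → P.a * ((m * b₀ / P.R : ℚ) : ℝ) ≤ p.h false (m * b₀ / P.R)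
  · refine ⟨false, P.R, hP.R_pos, le_rfl, fun b u hb1 hb2 hu0 hub => ?_⟩
    have e : (P.R : ℚ) * b₀ / P.R = b₀ := by field_simp
    rw [e] at hb1 hb2
    rw [hP.κf]
    have hb1r : (b₀ : ℝ) / 4 ≤ b := by
      have : ((b₀ / 4 : ℚ) : ℝ) ≤ (b : ℝ) := by exact_mod_cast hb1
      simpa using this
    have hu0r : (0 : ℝ) < u := by exact_mod_cast hu0
    have hu8 : u < 1 / 8 := lt_of_le_of_lt (hub.trans hb2) h1
    have hζ := hP.ζ_pos false
    have hb0 : (0 : ℝ) ≤ b := le_trans (by positivity) hb1r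
    by_cases hsm : u < b₀ / P.R
    · have h2 := hp.h0 false u hu0 hu8
      have hsmr : (u : ℝ) < b₀ / P.R := by
        have : (u : ℝ) < ((b₀ / P.R : ℚ) : ℝ) := by exact_mod_cast hsm
        simpa using this
      have h3 : P.a / 2 * u ≤ P.a / 2 * (b₀ / P.R) := mul_le_mul_of_nonneg_left hsmr.le (by linarith [hP.a_pos])
      have h4 : P.ζ false * (b₀ / 4) ≤ P.ζ false * b := mul_le_mul_of_nonneg_left hb1r hζ.le
      have h5 : P.a / 2 * (b₀ / P.R) ≤ P.ζ false * (b₀ / 4) := by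
        have : P.a / 2 * (b₀ / P.R) = (2 * P.a) * (b₀ / (4 * P.R)) := by
          field_simp
          ring
        rw [this]
        have e2 : P.ζ false * (b₀ / 4) = (P.ζ false * P.R) * (b₀ / (4 * P.R)) := by
          field_simp
        rw [e2]
        exact mul_le_mul_of_nonneg_right hP.R_ge (by positivity)
      linarith
    · push Not at hsm
      have hx : 1 ≤ u * P.R / b₀ := by
        rw [le_div_iff₀ h0, one_mul]
        rwa [div_le_iff₀ hR] at hsm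
      have hx0 : 0 ≤ u * P.R / b₀ := le_trans zero_le_one hx
      obtain ⟨m, hm⟩ : ∃ m : ℕ, m = ⌊u * P.R / b₀⌋₊ := ⟨_, rfl⟩
      have hm1 : 1 ≤ m := by
        rw [hm]
        exact Nat.le_floor (by simpa using hx)
      have hmle : (m : ℚ) ≤ u * P.R / b₀ := by
        rw [hm]
        exact Nat.floor_le hx0
      have hmlt : u * P.R / b₀ < (m : ℚ) + 1 := by
        rw [hm]
        exact Nat.lt_floor_add_one _
      have hmR : m ≤ P.R := by
        have : (m : ℚ) ≤ P.R := by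
          refine hmle.trans ?_
          rw [div_le_iff₀ h0]
          have : u ≤ b₀ := hub.trans hb2
          nlinarith
        exact_mod_cast this
      have hm1q : (1 : ℚ) ≤ m := by exact_mod_cast hm1
      have hvu : (m : ℚ) * b₀ / P.R ≤ u := by
        rw [div_le_iff₀ hR]
        rwa [le_div_iff₀ h0] at hmle
      have hv0 : 0 < (m : ℚ) * b₀ / P.R := by positivity
      have hu2v : u ≤ 2 * ((m : ℚ) * b₀ / P.R) := by
        rw [div_lt_iff₀ h0] at hmlt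
        have : u * P.R ≤ 2 * (m * b₀) := by nlinarith
        rw [← mul_div_assoc, le_div_iff₀ hR]
        exact this
      have h2 := hp.hmono false _ u hv0 hvu hu8
      have h3 := hA m hm1 hmR
      have hu2vr : (u : ℝ) ≤ 2 * ((m * b₀ / P.R : ℚ) : ℝ) := by exact_mod_cast hu2v
      have h4 : P.a / 2 * u ≤ P.a * ((m * b₀ / P.R : ℚ) : ℝ) := by
        have := mul_le_mul_of_nonneg_left hu2vr (by linarith [hP.a_pos] : 0 ≤ P.a / 2)
        linarith
      have h5 : 0 ≤ P.ζ false * b := mul_nonneg hζ.le hb0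
      linarith
  · push Not at hA
    obtain ⟨m, hm1, hmR, hlt⟩ := hA
    refine ⟨true, m, hm1, hmR, fun b u hb1 hb2 hu0 hub => ?_⟩
    rw [hP.κt]
    have hm1q : (1 : ℚ) ≤ m := by exact_mod_cast hm1
    have hmRq : (m : ℚ) ≤ P.R := by exact_mod_cast hmR
    obtain ⟨v, hv⟩ : ∃ v : ℚ, v = m * b₀ / P.R := ⟨_, rfl⟩
    rw [← hv] at hb1 hb2 hlt
    have hvb : v ≤ b₀ := by
      rw [hv, div_le_iff₀ hR]
      nlinarith
    have hv8 : v < 1 / 8 := lt_of_le_of_lt hvb h1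
    have huv : u ≤ v := hub.trans hb2
    have hu8 : u < 1 / 8 := lt_of_le_of_lt huv hv8
    have h2 := hp.hsum u hu0 hu8
    have h3 := hp.hmono false u v hu0 huv hv8
    have hu0r : (0 : ℝ) < u := by exact_mod_cast hu0
    have hb1r : (v : ℝ) ≤ 4 * b := by
      have : ((v / 4 : ℚ) : ℝ) ≤ (b : ℝ) := by exact_mod_cast hb1
      push_cast at this
      linarith
    have hb0 : (0 : ℝ) ≤ b := by
      have : (0 : ℝ) < b := lt_of_lt_of_le hu0r (by exact_mod_cast hub)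
      exact this.le
    have h4 : P.a * v ≤ P.a * (4 * b) := mul_le_mul_of_nonneg_left hb1r hP.a_pos.le
    have h5 : 4 * P.a * b ≤ P.ζ true * b := mul_le_mul_of_nonneg_right hP.a_le hb0
    have h6 : c₁ / 4 * u ≤ c₁ * u := by
      have := mul_pos hc hu0r
      linarith
    linarith

theorem tr_thr_pos (P : EPar) (hP : P.Ok c₁) : 0 < P.thr := by
  have hR : (0 : ℝ) < P.R := by exact_mod_cast hP.R_pos
  unfold EPar.thr
  exact div_pos (lt_min (hP.ζ_pos false) (hP.ζ_pos true)) (by positivity)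

theorem tr_cost_nonneg (hp : p.Reg θ c₁) (P : EPar) (k : ℕ) (x : ℕ × ℕ) : 0 ≤ p.cost P k x :=
  Finset.sum_nonneg fun _ _ => Finset.sum_nonneg fun _ _ => hp.c0 _ _ _

theorem tr_Q_pos (P : EPar) (hP : P.Ok c₁) : 0 < P.Q := by
  have := hP.Q_ge'
  have := hP.R_pos
  omega

/-- membership in the candidates -/
theorem tr_cand_iff (P : EPar) (k : ℕ) (x : ℕ × ℕ) : x ∈ P.cand k ↔ 1 ≤ x.2 ∧ x.2 ≤ P.Q ∧ x.1 + x.2 ≤ P.Q * 2 ^ k := by
  unfold EPar.cand
  rw [Finset.mem_filter, Finset.mem_product, Finset.mem_Icc, Finset.mem_range]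
  constructor
  · rintro ⟨⟨-, h1, h2⟩, h3⟩
    exact ⟨h1, h2, h3⟩
  · rintro ⟨h1, h2, h3⟩
    exact ⟨⟨by omega, h1, h2⟩, h3⟩

/-- a candidate on which the value tests and the angular test succeed fails the cost test -/
theorem tr_eng_fail (hp : p.Reg θ c₁) (P : EPar) (hP : P.Ok c₁) (hno : p.NoSucc P) (k : ℕ) (hk : (1 : ℚ) / 2 ^ k < 1 / 8)
    (j : Bool) (m : ℕ) (hm1 : 1 ≤ m) (hmR : m ≤ P.R)
    (halt : ∀ b u : ℚ, (m * (1 / 2 ^ k) / P.R) / 4 ≤ b → b ≤ m * (1 / 2 ^ k) / P.R → 0 < u → u ≤ b →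
      P.κ j * u - P.ζ j * b ≤ p.h j u)
    (x : ℕ × ℕ) (hx : x ∈ P.cand k) (hb1 : (m * (1 / 2 ^ k) / P.R) / 4 ≤ P.pt k x.2) (hb2 : P.pt k x.2 ≤ m * (1 / 2 ^ k) / P.R)
    (V1 : |p.G (P.pt k x.1 + P.pt k x.2) - p.G (P.pt k x.1) - P.d * (P.pt k x.2 : ℚ)| ≤ P.ζ j * (P.pt k x.2 : ℚ))
    (V2 : ∀ u : ℚ, 0 < u → u ≤ P.pt k x.2 →
      P.d₀ j * u - P.ζ j * (P.pt k x.2 : ℚ) ≤ p.G (P.pt k x.1 + u) - p.G (P.pt k x.1)) :
    P.thr / 2 ^ k < p.cost P k x := by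
  obtain ⟨hl1, hlQ, hil⟩ := (tr_cand_iff P k x).1 hx
  have hQ : (0 : ℚ) < P.Q := by exact_mod_cast tr_Q_pos P hP
  have hR : (0 : ℚ) < P.R := by exact_mod_cast hP.R_pos
  have hRr : (0 : ℝ) < P.R := by exact_mod_cast hP.R_pos
  have h2k : (0 : ℚ) < 2 ^ k := by positivity
  obtain ⟨s, hs⟩ : ∃ s : ℚ, s = P.pt k x.1 := ⟨_, rfl⟩
  obtain ⟨b, hb⟩ : ∃ b : ℚ, b = P.pt k x.2 := ⟨_, rfl⟩
  have hs0 : 0 ≤ s := by
    rw [hs]
    unfold EPar.pt
    positivity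
  have hb0 : 0 < b := by
    rw [hb]
    unfold EPar.pt
    have : (0 : ℚ) < x.2 := by exact_mod_cast hl1
    positivity
  have hsb : s + b ≤ 1 := by
    rw [hs, hb]
    unfold EPar.pt
    rw [← add_div, div_le_one (by positivity)]
    exact_mod_cast hil
  have hmRq : (m : ℚ) ≤ P.R := by exact_mod_cast hmR
  have hm1q : (1 : ℚ) ≤ m := by exact_mod_cast hm1
  have hbk : b ≤ 1 / 2 ^ k := by
    rw [hb]
    refine hb2.trans ?_
    rw [div_le_iff₀ hR]
    have : (0 : ℚ) < 1 / 2 ^ k := by positivity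
    nlinarith
  have hblk : EBlk s b := ⟨hs0, hb0, hsb, lt_of_le_of_lt hbk hk⟩
  have hns := hno j k s b hblk hbk
  rw [← hs, ← hb] at V1 V2
  rw [← hb] at hb1 hb2
  unfold EPath.Succ at hns
  push Not at hns
  obtain ⟨n, hn1, hnN, hn⟩ := hns V1
  have hNq : (0 : ℚ) < P.N j := by exact_mod_cast hP.N_pos j
  have hn1q : (0 : ℚ) < n := by exact_mod_cast hn1
  have hnNq : (n : ℚ) ≤ P.N j := by exact_mod_cast hnN
  have hu0 : 0 < b * n / P.N j := by positivity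
  have hub : b * n / P.N j ≤ b := by
    rw [div_le_iff₀ hNq]
    exact mul_le_mul_of_nonneg_left hnNq hb0.le
  have hfail : P.ζ j * b < p.c s (b * n / P.N j) (1 / 2 ^ k) := by
    by_contra hcon
    push Not at hcon
    have := hn (V2 _ hu0 hub) hcon
    exact absurd (halt b _ hb1 hb2 hu0 hub) (not_le.2 this)
  -- the term is one of the terms of the cost
  have hterm : p.c s (b * n / P.N j) (1 / 2 ^ k) ≤ p.cost P k x := by
    unfold EPath.cost
    rw [← hs, ← hb]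
    have h1 : p.c s (b * n / P.N j) (1 / 2 ^ k) ≤ ∑ m ∈ Finset.Icc 1 (P.N j), p.c s (b * m / P.N j) (1 / 2 ^ k) :=
      Finset.single_le_sum (f := fun m : ℕ => p.c s (b * m / P.N j) (1 / 2 ^ k)) (fun _ _ => hp.c0 _ _ _)
        (Finset.mem_Icc.2 ⟨hn1, hnN⟩)
    refine h1.trans ?_
    exact Finset.single_le_sum (f := fun j : Bool => ∑ m ∈ Finset.Icc 1 (P.N j), p.c s (b * m / P.N j) (1 / 2 ^ k))
      (fun _ _ => Finset.sum_nonneg fun _ _ => hp.c0 _ _ _) (Finset.mem_univ j)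
  refine lt_of_le_of_lt ?_ (lt_of_lt_of_le hfail hterm)
  -- `thr b₀ ≤ ζ b`
  have hbr : 1 / (4 * (P.R : ℝ) * 2 ^ k) ≤ (b : ℝ) := by
    have h1 : 1 / (4 * (P.R : ℚ) * 2 ^ k) ≤ b := by
      refine le_trans ?_ hb1
      have e : (m : ℚ) * (1 / 2 ^ k) / P.R / 4 = m * (1 / (4 * (P.R : ℚ) * 2 ^ k)) := by
        field_simp
      rw [e]
      exact le_mul_of_one_le_left (by positivity) hm1q
    have h2 : ((1 / (4 * (P.R : ℚ) * 2 ^ k) : ℚ) : ℝ) ≤ (b : ℝ) := by exact_mod_cast h1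
    simpa using h2
  have hmin : min (P.ζ false) (P.ζ true) ≤ P.ζ j := by
    cases j
    · exact min_le_left _ _
    · exact min_le_right _ _
  have hmin0 : 0 < min (P.ζ false) (P.ζ true) := lt_min (hP.ζ_pos false) (hP.ζ_pos true)
  unfold EPar.thr
  calc min (P.ζ false) (P.ζ true) / (4 * P.R) / 2 ^ k = min (P.ζ false) (P.ζ true) * (1 / (4 * (P.R : ℝ) * 2 ^ k)) := by
        field_simp
    _ ≤ P.ζ j * (1 / (4 * (P.R : ℝ) * 2 ^ k)) := mul_le_mul_of_nonneg_right hmin (by positivity)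
    _ ≤ P.ζ j * b := mul_le_mul_of_nonneg_left hbr (hP.ζ_pos j).le

theorem tr_pt_cast (P : EPar) (k i : ℕ) : ((P.pt k i : ℚ) : ℝ) = (i : ℝ) / ((P.Q : ℝ) * 2 ^ k) := by
  unfold EPar.pt
  push_cast
  rfl

/-- the same with real hypotheses -/
theorem tr_eng_failR (hp : p.Reg θ c₁) (P : EPar) (hP : P.Ok c₁) (hno : p.NoSucc P) (k : ℕ) (hk : 4 ≤ k)
    (j : Bool) (m : ℕ) (hm1 : 1 ≤ m) (hmR : m ≤ P.R)
    (halt : ∀ b u : ℚ, (m * (1 / 2 ^ k) / P.R) / 4 ≤ b → b ≤ m * (1 / 2 ^ k) / P.R → 0 < u → u ≤ b →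
      P.κ j * u - P.ζ j * b ≤ p.h j u)
    (i l : ℕ) (s b : ℝ) (hs : s = (i : ℝ) / ((P.Q : ℝ) * 2 ^ k)) (hb : b = (l : ℝ) / ((P.Q : ℝ) * 2 ^ k))
    (hb1 : (m : ℝ) / ((P.R : ℝ) * 2 ^ k) / 4 ≤ b) (hb2 : b ≤ (m : ℝ) / ((P.R : ℝ) * 2 ^ k)) (hsb : s + b ≤ 1)
    (W1 : |eExt p.G (s + b) - eExt p.G s - P.d * b| ≤ P.ζ j * b)
    (W2 : ∀ u : ℝ, 0 ≤ u → u ≤ b → P.d₀ j * u - P.ζ j * b ≤ eExt p.G (s + u) - eExt p.G s) :
    (i, l) ∈ P.cand k ∧ P.thr / 2 ^ k < p.cost P k (i, l) := by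
  have hQ : (0 : ℝ) < P.Q := by exact_mod_cast tr_Q_pos P hP
  have hR : (0 : ℝ) < P.R := by exact_mod_cast hP.R_pos
  have h2k : (0 : ℝ) < 2 ^ k := by positivity
  have hm1r : (1 : ℝ) ≤ m := by exact_mod_cast hm1
  have hmRr : (m : ℝ) ≤ P.R := by exact_mod_cast hmR
  have hsc : ((P.pt k i : ℚ) : ℝ) = s := by rw [tr_pt_cast, hs]
  have hbc : ((P.pt k l : ℚ) : ℝ) = b := by rw [tr_pt_cast, hb]
  have hb0 : 0 < b := lt_of_lt_of_le (by positivity) hb1
  have hs0 : 0 ≤ s := by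
    rw [hs]
    positivity
  have hcand : (i, l) ∈ P.cand k := by
    rw [tr_cand_iff]
    refine ⟨?_, ?_, ?_⟩
    · have : (0 : ℝ) < l := by
        rw [hb] at hb0
        by_contra hcon
        push Not at hcon
        have : (l : ℝ) / ((P.Q : ℝ) * 2 ^ k) ≤ 0 := div_nonpos_of_nonpos_of_nonneg hcon (by positivity)
        linarith
      have : 0 < l := by exact_mod_cast this
      exact this
    · have h1 : b ≤ 1 / 2 ^ k := by
        refine hb2.trans ?_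
        rw [div_le_div_iff₀ (by positivity) h2k]
        nlinarith
      rw [hb, div_le_div_iff₀ (by positivity) h2k] at h1
      have h2 : (l : ℝ) ≤ P.Q := by nlinarith
      exact_mod_cast h2
    · rw [hs, hb, ← add_div, div_le_one (by positivity)] at hsb
      exact_mod_cast hsb
  refine ⟨hcand, ?_⟩
  have hk8 : (1 : ℚ) / 2 ^ k < 1 / 8 := by
    apply one_div_lt_one_div_of_lt (by norm_num)
    calc (8 : ℚ) < 2 ^ 4 := by norm_num
      _ ≤ 2 ^ k := pow_le_pow_right₀ (by norm_num) hk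
  have hs0q : 0 ≤ P.pt k i := by
    unfold EPar.pt
    positivity
  have hGs : eExt p.G s = p.G (P.pt k i) := by
    rw [← hsc]
    refine tr_eExt_rat hp _ hs0q ?_
    have : ((P.pt k i : ℚ) : ℝ) ≤ 1 := by
      rw [hsc]
      linarith
    exact_mod_cast this
  have hGu : ∀ u : ℚ, 0 ≤ u → (u : ℝ) ≤ b → eExt p.G (s + u) = p.G (P.pt k i + u) := by
    intro u hu0 hub
    have e : s + (u : ℝ) = ((P.pt k i + u : ℚ) : ℝ) := by
      push_cast
      rw [hsc]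
    rw [e]
    refine tr_eExt_rat hp _ (add_nonneg hs0q hu0) ?_
    have : ((P.pt k i + u : ℚ) : ℝ) ≤ 1 := by
      rw [← e]
      linarith
    exact_mod_cast this
  have hb0q : 0 ≤ P.pt k l := by
    unfold EPar.pt
    positivity
  refine tr_eng_fail hp P hP hno k hk8 j m hm1 hmR halt (i, l) hcand ?_ ?_ ?_ ?_
  · have : (((m * (1 / 2 ^ k) / P.R) / 4 : ℚ) : ℝ) ≤ ((P.pt k l : ℚ) : ℝ) := by
      rw [hbc]
      refine le_trans (le_of_eq ?_) hb1
      push_cast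
      field_simp
    exact_mod_cast this
  · have : ((P.pt k l : ℚ) : ℝ) ≤ ((m * (1 / 2 ^ k) / P.R : ℚ) : ℝ) := by
      rw [hbc]
      refine le_trans hb2 (le_of_eq ?_)
      push_cast
      field_simp
    exact_mod_cast this
  · change |p.G (P.pt k i + P.pt k l) - p.G (P.pt k i) - P.d * ((P.pt k l : ℚ) : ℝ)| ≤ P.ζ j * ((P.pt k l : ℚ) : ℝ)
    rw [← hGu _ hb0q (le_of_eq hbc), ← hGs, hbc]
    exact W1
  · intro u hu0 hub
    change P.d₀ j * (u : ℝ) - P.ζ j * ((P.pt k l : ℚ) : ℝ) ≤ p.G (P.pt k i + u) - p.G (P.pt k i)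
    have hub' : (u : ℝ) ≤ b := by
      rw [← hbc]
      exact_mod_cast hub
    rw [← hGu u hu0.le hub', ← hGs, hbc]
    exact W2 u (by exact_mod_cast hu0.le) hub'

theorem tr_deriv_two (g : ℝ → ℝ) (x g' δ : ℝ) (hg : HasDerivAt g g' x) (hδ : 0 < δ) :
    ∃ ρ > 0, ∀ y z : ℝ, |y - x| < ρ → |z - x| < ρ → |g z - g y - g' * (z - y)| ≤ δ * (|y - x| + |z - x|) := by
  have h := (hasDerivAt_iff_isLittleO.1 hg).def hδ
  obtain ⟨ρ, hρ, hball⟩ := Metric.eventually_nhds_iff.1 h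
  refine ⟨ρ, hρ, fun y z hy hz => ?_⟩
  have h1 := hball (y := y) (by rwa [Real.dist_eq])
  have h2 := hball (y := z) (by rwa [Real.dist_eq])
  simp only [Real.norm_eq_abs, smul_eq_mul] at h1 h2
  have e : g z - g y - g' * (z - y) = (g z - g x - (z - x) * g') - (g y - g x - (y - x) * g') := by ring
  rw [e]
  refine (abs_sub _ _).trans ?_
  linarith

theorem tr_two_pow_small (ε : ℝ) (hε : 0 < ε) : ∀ᶠ k : ℕ in atTop, (1 : ℝ) / 2 ^ k < ε := by
  have ht : Tendsto (fun k : ℕ => (1 : ℝ) / 2 ^ k) atTop (𝓝 0) := by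
    have := tendsto_pow_atTop_nhds_zero_of_lt_one (by norm_num : (0 : ℝ) ≤ 1 / 2) (by norm_num : (1 / 2 : ℝ) < 1)
    simpa [one_div, inv_pow] using this
  exact (tendsto_order.1 ht).2 _ hε

theorem tr_thr_le (P : EPar) (hP : P.Ok c₁) (j : Bool) (k m : ℕ) (hm1 : 1 ≤ m) (b : ℝ) (hb : (m : ℝ) / ((P.R : ℝ) * 2 ^ k) / 4 ≤ b) :
    P.thr / 2 ^ k ≤ P.ζ j * b := by
  have hR : (0 : ℝ) < P.R := by exact_mod_cast hP.R_pos
  have hm1r : (1 : ℝ) ≤ m := by exact_mod_cast hm1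
  have hmin : min (P.ζ false) (P.ζ true) ≤ P.ζ j := by
    cases j
    · exact min_le_left _ _
    · exact min_le_right _ _
  have hbr : 1 / (4 * (P.R : ℝ) * 2 ^ k) ≤ b := by
    refine le_trans ?_ hb
    have e : (m : ℝ) / ((P.R : ℝ) * 2 ^ k) / 4 = m * (1 / (4 * (P.R : ℝ) * 2 ^ k)) := by
      field_simp
    rw [e]
    exact le_mul_of_one_le_left (by positivity) hm1r
  unfold EPar.thr
  calc min (P.ζ false) (P.ζ true) / (4 * P.R) / 2 ^ k = min (P.ζ false) (P.ζ true) * (1 / (4 * (P.R : ℝ) * 2 ^ k)) := by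
        field_simp
    _ ≤ P.ζ j * (1 / (4 * (P.R : ℝ) * 2 ^ k)) := mul_le_mul_of_nonneg_right hmin (by positivity)
    _ ≤ P.ζ j * b := mul_le_mul_of_nonneg_left hbr (hP.ζ_pos j).le

/-- **Binary derivative, local step** (U3).  At a point of differentiability with derivative in the window of `d`, for all large `k` the point lies in a candidate that fails the cost test.
PLAN.  `b₀ = 2^{-k}`; `(j,m)` from `tr_eng_alt`, `b' = m b₀/R`; `i = ⌊x Q/b₀⌋`, `l = ⌈m Q/(2R)⌉` so that `b = l b₀/Q ∈ [b'/2, b'/2 + b₀/Q] ⊆ [b'/4, b']` (`Q_ge'`), `x ∈ [s, s + b₀/Q]`, `s + b ≤ 1` for large `k`.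
Differentiability with `δ = min ζ /(24 R)`: `|G(s+u) - G(s) - g' u| ≤ 3 δ b₀ ≤ (ζ/2) b` for `0 ≤ u ≤ b` (`b ≥ b₀/(4R)`), so (i) of `Succ` holds (`tiny_ζ`, `tiny_d₀`); (iii) holds by the alternative.
`NoSucc` forces a cost `> ζ_j b ≥ thr b₀`; costs are nonnegative, so `cost ≥` that term. -/
theorem tr_eng_local (hp : p.Reg θ c₁) (hc : 0 < c₁) (P : EPar) (hP : P.Ok c₁) (hno : p.NoSucc P)
    (x g' : ℝ) (hx : x ∈ Ioo (0 : ℝ) 1) (hg : HasDerivAt (eExt p.G) g' x) (hd : |g' - P.d| < P.tiny) :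
    ∀ᶠ k : ℕ in atTop, x ∈ p.bad P k := by
  have hthr := tr_thr_pos P hP
  obtain ⟨ρ, hρ, hder⟩ := tr_deriv_two (eExt p.G) x g' (P.thr / 2) hg (by linarith)
  have hε : 0 < min (1 - x) ρ := lt_min (by linarith [hx.2]) hρ
  filter_upwards [tr_two_pow_small _ hε, eventually_ge_atTop 4] with k hk hk4
  have hk1 : (1 : ℝ) / 2 ^ k < 1 - x := lt_of_lt_of_le hk (min_le_left _ _)
  have hk2 : (1 : ℝ) / 2 ^ k < ρ := lt_of_lt_of_le hk (min_le_right _ _)
  have hk8 : (1 : ℚ) / 2 ^ k < 1 / 8 := by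
    apply one_div_lt_one_div_of_lt (by norm_num)
    calc (8 : ℚ) < 2 ^ 4 := by norm_num
      _ ≤ 2 ^ k := pow_le_pow_right₀ (by norm_num) hk4
  obtain ⟨j, m, hm1, hmR, halt⟩ := tr_eng_alt hp hc P hP (1 / 2 ^ k) (by positivity) hk8
  have hQ : (0 : ℝ) < P.Q := by exact_mod_cast tr_Q_pos P hP
  have hR : (0 : ℝ) < P.R := by exact_mod_cast hP.R_pos
  have h2k : (0 : ℝ) < 2 ^ k := by positivity
  have hm1r : (1 : ℝ) ≤ m := by exact_mod_cast hm1
  have hmRr : (m : ℝ) ≤ P.R := by exact_mod_cast hmR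
  have hQR : 12 * (P.R : ℝ) ≤ P.Q := by exact_mod_cast hP.Q_ge'
  obtain ⟨W, hW⟩ : ∃ W : ℝ, W = (P.Q : ℝ) * 2 ^ k := ⟨_, rfl⟩
  have hW0 : 0 < W := by rw [hW]; positivity
  obtain ⟨i, hi⟩ : ∃ i : ℕ, i = ⌊x * W⌋₊ := ⟨_, rfl⟩
  obtain ⟨l, hl⟩ : ∃ l : ℕ, l = ⌈(m : ℝ) * P.Q / (2 * P.R)⌉₊ := ⟨_, rfl⟩
  obtain ⟨s, hs⟩ : ∃ s : ℝ, s = (i : ℝ) / W := ⟨_, rfl⟩
  obtain ⟨b, hb⟩ : ∃ b : ℝ, b = (l : ℝ) / W := ⟨_, rfl⟩
  have hxW : 0 ≤ x * W := mul_nonneg hx.1.le hW0.le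
  have hsx : s ≤ x := by
    rw [hs, div_le_iff₀ hW0, hi]
    exact Nat.floor_le hxW
  have hxs : x < s + 1 / W := by
    rw [hs, ← add_div, lt_div_iff₀ hW0, hi]
    exact Nat.lt_floor_add_one _
  have hl1 : (m : ℝ) * P.Q / (2 * P.R) ≤ l := by
    rw [hl]
    exact Nat.le_ceil _
  have hl2 : (l : ℝ) < (m : ℝ) * P.Q / (2 * P.R) + 1 := by
    rw [hl]
    exact Nat.ceil_lt_add_one (by positivity)
  obtain ⟨B, hB⟩ : ∃ B : ℝ, B = (m : ℝ) / ((P.R : ℝ) * 2 ^ k) := ⟨_, rfl⟩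
  have hB0 : 0 < B := by rw [hB]; positivity
  have eB : (m : ℝ) * P.Q / (2 * P.R) / W = B / 2 := by
    rw [hB, hW]
    field_simp
  have hbB : B / 2 ≤ b := by
    rw [hb, ← eB]
    exact div_le_div_of_nonneg_right hl1 hW0.le
  have hWB : 1 / W ≤ B / 2 := by
    rw [hB, hW, div_div, div_le_div_iff₀ (by positivity) (by positivity)]
    have : (P.R : ℝ) * 2 ≤ m * P.Q := by nlinarith
    nlinarith
  have hbB2 : b ≤ B := by
    have : b ≤ B / 2 + 1 / W := by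
      rw [hb, ← eB, ← add_div]
      exact div_le_div_of_nonneg_right hl2.le hW0.le
    linarith
  have hBk : B ≤ 1 / 2 ^ k := by
    rw [hB, div_le_div_iff₀ (by positivity) h2k]
    nlinarith
  have hb0 : 0 < b := by linarith
  have hE : P.thr / 2 ^ k ≤ P.ζ j / 2 * b := by
    have := tr_thr_le P hP j k m hm1 (b / 2) (by rw [← hB]; linarith)
    linarith
  -- the derivative estimate
  have hest : ∀ u : ℝ, 0 ≤ u → u ≤ b → |eExt p.G (s + u) - eExt p.G s - g' * u| ≤ P.thr / 2 ^ k := by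
    intro u hu0 hub
    have a1 : |s - x| ≤ 1 / 2 ^ k := by
      rw [abs_le]
      constructor <;> linarith
    have a2 : |s + u - x| ≤ 1 / 2 ^ k := by
      rw [abs_le]
      constructor <;> linarith
    have := hder s (s + u) (lt_of_le_of_lt a1 hk2) (lt_of_le_of_lt a2 hk2)
    rw [show s + u - s = u by ring] at this
    refine this.trans ?_
    calc P.thr / 2 * (|s - x| + |s + u - x|) ≤ P.thr / 2 * (1 / 2 ^ k + 1 / 2 ^ k) :=
          mul_le_mul_of_nonneg_left (add_le_add a1 a2) (by linarith)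
      _ = P.thr / 2 ^ k := by ring
  rw [abs_lt] at hd
  have hζ := hP.ζ_pos j
  have ht1 := hP.tiny_ζ j
  have ht2 := hP.tiny_d₀ j
  obtain ⟨hcand, hfail⟩ := tr_eng_failR hp P hP hno k hk4 j m hm1 hmR halt i l s b (by rw [hs, hW]) (by rw [hb, hW])
    (by rw [← hB]; linarith) (by rw [← hB]; exact hbB2) (by linarith) (by
      have h1 := hest b hb0.le le_rfl
      have e : eExt p.G (s + b) - eExt p.G s - P.d * b = (eExt p.G (s + b) - eExt p.G s - g' * b) + (g' - P.d) * b := by ring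
      rw [e]
      refine (abs_add_le _ _).trans ?_
      have h2 : |(g' - P.d) * b| ≤ P.tiny * b := by
        rw [abs_mul, abs_of_pos hb0]
        exact mul_le_mul_of_nonneg_right (abs_le.2 ⟨hd.1.le, hd.2.le⟩) hb0.le
      have h3 : P.tiny * b ≤ P.ζ j / 2 * b := mul_le_mul_of_nonneg_right ht1 hb0.le
      linarith) (by
      intro u hu0 hub
      have h1 := (abs_le.1 (hest u hu0 hub)).1
      have h2 : P.d₀ j * u ≤ g' * u := mul_le_mul_of_nonneg_right (by linarith [hd.1]) hu0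
      have h3 : 0 ≤ P.ζ j / 2 * b := by positivity
      linarith)
  unfold EPath.bad
  simp only [mem_iUnion]
  refine ⟨(i, l), Finset.mem_filter.2 ⟨hcand, hfail⟩, ?_, ?_⟩
  · rw [tr_pt_cast, ← hW, ← hs]
    exact hsx
  · push_cast
    rw [tr_pt_cast, tr_pt_cast, ← hW, ← hs, ← hb]
    linarith

/-- the bad set of level `k` is small: every bad candidate has length `≤ 2^{-k}` and cost `> thr 2^{-k}` -/
theorem tr_eng_badvol (hp : p.Reg θ c₁) (P : EPar) (hP : P.Ok c₁) (k : ℕ) :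
    volume (p.bad P k) ≤ ENNReal.ofReal (p.tot P k / P.thr) := by
  have hthr := tr_thr_pos P hP
  have hQ : (0 : ℝ) < P.Q := by exact_mod_cast tr_Q_pos P hP
  unfold EPath.bad
  refine (measure_biUnion_finset_le _ _).trans ?_
  have h1 : ∀ x ∈ (P.cand k).filter (fun x => P.thr / 2 ^ k < p.cost P k x),
      volume (Icc ((P.pt k x.1 : ℚ) : ℝ) ((P.pt k x.1 + P.pt k x.2 : ℚ) : ℝ)) ≤ ENNReal.ofReal (p.cost P k x / P.thr) := by
    intro x hx
    rw [Finset.mem_filter] at hx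
    obtain ⟨hxc, hxb⟩ := hx
    unfold EPar.cand at hxc
    rw [Finset.mem_filter, Finset.mem_product, Finset.mem_Icc] at hxc
    rw [Real.volume_Icc]
    apply ENNReal.ofReal_le_ofReal
    have e : ((P.pt k x.1 + P.pt k x.2 : ℚ) : ℝ) - ((P.pt k x.1 : ℚ) : ℝ) = (x.2 : ℝ) / ((P.Q : ℝ) * 2 ^ k) := by
      unfold EPar.pt
      push_cast
      ring
    rw [e]
    have hx2 : (x.2 : ℝ) ≤ P.Q := by exact_mod_cast hxc.1.2.2
    have h2 : (x.2 : ℝ) / ((P.Q : ℝ) * 2 ^ k) ≤ 1 / 2 ^ k := by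
      rw [div_le_div_iff₀ (by positivity) (by positivity)]
      nlinarith [(by positivity : (0 : ℝ) < 2 ^ k)]
    refine h2.trans ?_
    rw [le_div_iff₀ hthr]
    have : 1 / 2 ^ k * P.thr = P.thr / 2 ^ k := by ring
    rw [this]
    exact hxb.le
  refine (Finset.sum_le_sum h1).trans ?_
  rw [← ENNReal.ofReal_sum_of_nonneg (fun x _ => div_nonneg (tr_cost_nonneg hp P k x) hthr.le)]
  apply ENNReal.ofReal_le_ofReal
  rw [← Finset.sum_div]
  refine div_le_div_of_nonneg_right ?_ hthr.le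
  unfold EPath.tot
  exact Finset.sum_le_sum_of_subset_of_nonneg (Finset.filter_subset _ _) (fun x _ _ => tr_cost_nonneg hp P k x)

/-- **Binary derivative, one window** (Borel-Cantelli `measure_limsup_atTop_eq_zero` + `tr_eng_local` + `tr_eng_badvol`) -/
theorem tr_eng_bin (hp : p.Reg θ c₁) (hc : 0 < c₁) (P : EPar) (hP : P.Ok c₁) (hno : p.NoSucc P)
    (hsum : Summable (fun k => p.tot P k)) :
    volume {x : ℝ | x ∈ Ioo (0 : ℝ) 1 ∧ ∃ g' : ℝ, HasDerivAt (eExt p.G) g' x ∧ |g' - P.d| < P.tiny} = 0 := by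
  have hthr := tr_thr_pos P hP
  have htot : ∀ k, 0 ≤ p.tot P k := fun k => Finset.sum_nonneg fun x _ => tr_cost_nonneg hp P k x
  have hfin : ∑' k, volume (p.bad P k) ≠ ∞ := by
    refine ne_top_of_le_ne_top ?_ (ENNReal.tsum_le_tsum fun k => tr_eng_badvol hp P hP k)
    exact (hsum.div_const P.thr).tsum_ofReal_ne_top
  have h0 := measure_setOfPred_frequently_eq_zero hfin
  refine measure_mono_null ?_ h0
  rintro x ⟨hx, g', hg, hd⟩
  exact (tr_eng_local hp hc P hP hno x g' hx hg hd).frequently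

/-- **One ordered pair gives a failing candidate** (U5, `d = 1/2`).
PLAN.  `H s = g s - s/2` rises after `a` (derivative `1/2`) and falls before `b` (derivative `-1/2`): `tr_eng_hill` gives `r₀, a', b'`.  For large `k`: `(j,m)` from `tr_eng_alt`, `b' = m b₀/R`, hill `[x,y]` at `r = b'/3`;
`i = ⌊x Q/b₀⌋`, `l` = nearest integer to `(y-x) Q/b₀`: `|s-x|, |b-(y-x)| ≤ b₀/Q`, `b ∈ [b'/4,b']` (`Q_ge'`), `[s,s+b] ⊆ [a,b]`.
(i): errors `≤ 4 b₀/Q ≤ ζ b₀/(4R) ≤ ζ b` (`Q_ge`); prefixes: `g(s+u)-g(s) ≥ u/2 - 3 b₀/Q ≥ d₀ u - ζ b`; (iii) by the alternative; so a cost test fails. -/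
theorem tr_eng_pair (hp : p.Reg θ c₁) (hc : 0 < c₁) (P : EPar) (hP : P.Ok c₁) (hd : P.d = 1 / 2) (hno : p.NoSucc P)
    (a b : ℝ) (ha : 0 < a) (hab : a < b) (hb : b < 1) (h1 : HasDerivAt (eExt p.G) 1 a) (h0 : HasDerivAt (eExt p.G) 0 b) :
    ∀ᶠ k : ℕ in atTop, ∃ x ∈ P.cand k, a ≤ ((P.pt k x.1 : ℚ) : ℝ) ∧ ((P.pt k x.1 + P.pt k x.2 : ℚ) : ℝ) ≤ b ∧
      P.thr / 2 ^ k < p.cost P k x := by
  have hlip := tr_eExt_lip hp
  have hmono := tr_eExt_mono hp
  obtain ⟨g, hg⟩ : ∃ g : ℝ → ℝ, g = eExt p.G := ⟨_, rfl⟩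
  rw [← hg] at hlip hmono h1 h0
  -- increments of `g`
  have hinc : ∀ t t' : ℝ, t ≤ t' → 0 ≤ g t' - g t ∧ g t' - g t ≤ t' - t := by
    intro t t' htt
    refine ⟨sub_nonneg.2 (hmono htt), ?_⟩
    have := hlip.dist_le_mul t' t
    rw [Real.dist_eq, Real.dist_eq, NNReal.coe_one, one_mul, abs_of_nonneg (sub_nonneg.2 htt)] at this
    exact (le_abs_self _).trans this
  obtain ⟨H, hH⟩ : ∃ H : ℝ → ℝ, H = fun t => g t - t / 2 := ⟨_, rfl⟩
  have hHc : Continuous H := by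
    rw [hH]
    exact hlip.continuous.sub (continuous_id.div_const 2)
  have hHv : ∀ t, H t = g t - t / 2 := fun t => by rw [hH]
  have hrise : ∀ᶠ u in 𝓝[>] (0 : ℝ), H a < H (a + u) := by
    obtain ⟨ρ, hρ, hder⟩ := tr_deriv_two g a 1 (1 / 4) h1 (by norm_num)
    filter_upwards [Ioo_mem_nhdsGT hρ] with u hu
    have := hder a (a + u) (by simpa using hρ) (by
      rw [show a + u - a = u by ring, abs_of_pos hu.1]
      exact hu.2)
    rw [show a + u - a = u by ring, sub_self, abs_zero, abs_of_pos hu.1] at this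
    have := (abs_le.1 this).1
    rw [hHv, hHv]
    linarith [hu.1]
  have hfall : ∀ᶠ u in 𝓝[>] (0 : ℝ), H b < H (b - u) := by
    obtain ⟨ρ, hρ, hder⟩ := tr_deriv_two g b 0 (1 / 4) h0 (by norm_num)
    filter_upwards [Ioo_mem_nhdsGT hρ] with u hu
    have := hder b (b - u) (by simpa using hρ) (by
      rw [show b - u - b = -u by ring, abs_neg, abs_of_pos hu.1]
      exact hu.2)
    rw [show b - u - b = -u by ring, sub_self, abs_zero, abs_neg, abs_of_pos hu.1] at this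
    have := (abs_le.1 this).1
    rw [hHv, hHv]
    linarith [hu.1]
  obtain ⟨r₀, a', b', hr₀, haa', hbb', hhill⟩ := tr_eng_hill H hHc a b hab hrise hfall
  have hε : 0 < min r₀ (a' - a) := lt_min hr₀ (by linarith)
  filter_upwards [tr_two_pow_small _ hε, eventually_ge_atTop 4] with k hk hk4
  have hk1 : (1 : ℝ) / 2 ^ k < r₀ := lt_of_lt_of_le hk (min_le_left _ _)
  have hk2 : (1 : ℝ) / 2 ^ k < a' - a := lt_of_lt_of_le hk (min_le_right _ _)
  have hk8 : (1 : ℚ) / 2 ^ k < 1 / 8 := by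
    apply one_div_lt_one_div_of_lt (by norm_num)
    calc (8 : ℚ) < 2 ^ 4 := by norm_num
      _ ≤ 2 ^ k := pow_le_pow_right₀ (by norm_num) hk4
  obtain ⟨j, m, hm1, hmR, halt⟩ := tr_eng_alt hp hc P hP (1 / 2 ^ k) (by positivity) hk8
  have hQ : (0 : ℝ) < P.Q := by exact_mod_cast tr_Q_pos P hP
  have hR : (0 : ℝ) < P.R := by exact_mod_cast hP.R_pos
  have h2k : (0 : ℝ) < 2 ^ k := by positivity
  have hm1r : (1 : ℝ) ≤ m := by exact_mod_cast hm1
  have hmRr : (m : ℝ) ≤ P.R := by exact_mod_cast hmR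
  have hQR : 12 * (P.R : ℝ) ≤ P.Q := by exact_mod_cast hP.Q_ge'
  obtain ⟨W, hW⟩ : ∃ W : ℝ, W = (P.Q : ℝ) * 2 ^ k := ⟨_, rfl⟩
  have hW0 : 0 < W := by rw [hW]; positivity
  obtain ⟨B, hB⟩ : ∃ B : ℝ, B = (m : ℝ) / ((P.R : ℝ) * 2 ^ k) := ⟨_, rfl⟩
  have hB0 : 0 < B := by rw [hB]; positivity
  have hBk : B ≤ 1 / 2 ^ k := by
    rw [hB, div_le_div_iff₀ (by positivity) h2k]
    nlinarith
  have hWB : 1 / W ≤ B / 12 := by
    rw [hB, hW, div_div, div_le_div_iff₀ (by positivity) (by positivity)]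
    have : (P.R : ℝ) * 12 ≤ m * P.Q := by nlinarith
    nlinarith
  obtain ⟨x, y, hxa, hyb, hr1, hr2, hHxy, hHge⟩ := hhill (B / 3) (by positivity) (by linarith)
  obtain ⟨i, hi⟩ : ∃ i : ℕ, i = ⌊x * W⌋₊ := ⟨_, rfl⟩
  obtain ⟨l, hl⟩ : ∃ l : ℕ, l = ⌊(y - x) * W⌋₊ := ⟨_, rfl⟩
  obtain ⟨s, hs⟩ : ∃ s : ℝ, s = (i : ℝ) / W := ⟨_, rfl⟩
  obtain ⟨bb, hbb⟩ : ∃ bb : ℝ, bb = (l : ℝ) / W := ⟨_, rfl⟩
  have hx0 : 0 ≤ x := by linarith
  have hxW : 0 ≤ x * W := mul_nonneg hx0 hW0.le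
  have hyxW : 0 ≤ (y - x) * W := mul_nonneg (by linarith) hW0.le
  have hsx : s ≤ x := by
    rw [hs, div_le_iff₀ hW0, hi]
    exact Nat.floor_le hxW
  have hxs : x < s + 1 / W := by
    rw [hs, ← add_div, lt_div_iff₀ hW0, hi]
    exact Nat.lt_floor_add_one _
  have hby : bb ≤ y - x := by
    rw [hbb, div_le_iff₀ hW0, hl]
    exact Nat.floor_le hyxW
  have hyb' : y - x < bb + 1 / W := by
    rw [hbb, ← add_div, lt_div_iff₀ hW0, hl]
    exact Nat.lt_floor_add_one _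
  have hbb0 : 0 < bb := by linarith
  have hζ := hP.ζ_pos j
  -- `2 / W ≤ ζ b`
  have hWζ : 2 / W ≤ P.ζ j * bb := by
    have h3 : P.ζ j * (B / 4) ≤ P.ζ j * bb := mul_le_mul_of_nonneg_left (by linarith) hζ.le
    refine le_trans ?_ h3
    have h4 := hP.Q_ge j
    rw [hB, hW, div_div, ← mul_div_assoc, div_le_div_iff₀ (by positivity) (by positivity)]
    have h5 : 8 * (P.R : ℝ) ≤ P.ζ j * m * P.Q := by
      have : P.ζ j * P.Q ≤ P.ζ j * m * P.Q := by
        have : 0 < P.ζ j * P.Q := by positivity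
        nlinarith
      linarith
    calc 2 * ((P.R : ℝ) * 2 ^ k * 4) = 8 * (P.R : ℝ) * 2 ^ k := by ring
      _ ≤ P.ζ j * m * P.Q * 2 ^ k := mul_le_mul_of_nonneg_right h5 h2k.le
      _ = P.ζ j * m * (P.Q * 2 ^ k) := by ring
  have hW1 : 0 < 1 / W := by positivity
  have e2W : 2 / W = 1 / W + 1 / W := by ring
  obtain ⟨hcand, hfail⟩ := tr_eng_failR hp P hP hno k hk4 j m hm1 hmR halt i l s bb (by rw [hs, hW]) (by rw [hbb, hW])
    (by rw [← hB]; linarith) (by rw [← hB]; linarith) (by linarith) (by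
      rw [← hg, hd]
      have i1 := hinc (s + bb) y (by linarith)
      have i2 := hinc s x hsx
      have e1 := hHv y
      have e2 := hHv x
      rw [abs_le]
      constructor <;> linarith) (by
      intro u hu0 hub
      rw [← hg]
      have ht2 := hP.tiny_d₀ j
      have ht3 := hP.tiny_pos
      have h2 : P.d₀ j * u ≤ 1 / 2 * u := mul_le_mul_of_nonneg_right (by linarith) hu0
      rcases le_total x (s + u) with hc1 | hc1
      · have i1 := hHge (s + u) ⟨hc1, by linarith⟩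
        have i2 := hinc s x hsx
        have e1 := hHv (s + u)
        have e2 := hHv x
        linarith
      · have i1 := hinc s (s + u) (by linarith)
        linarith)
  refine ⟨(i, l), hcand, ?_, ?_, hfail⟩
  · rw [tr_pt_cast, ← hW, ← hs]
    linarith
  · push_cast
    rw [tr_pt_cast, tr_pt_cast, ← hW, ← hs, ← hbb]
    linarith

/-- **Counting** (U5): disjoint pairs give distinct failing candidates -/
theorem tr_eng_count (hp : p.Reg θ c₁) (hc : 0 < c₁) (P : EPar) (hP : P.Ok c₁) (hd : P.d = 1 / 2) (hno : p.NoSucc P)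
    (S : Finset (ℝ × ℝ)) (hS : EFam (eExt p.G) S) :
    ∀ᶠ k : ℕ in atTop, (S.card : ℝ) * (P.thr / 2 ^ k) ≤ p.tot P k := by
  have hall : ∀ᶠ k : ℕ in atTop, ∀ q ∈ S, ∃ x ∈ P.cand k, q.1 ≤ ((P.pt k x.1 : ℚ) : ℝ) ∧
      ((P.pt k x.1 + P.pt k x.2 : ℚ) : ℝ) ≤ q.2 ∧ P.thr / 2 ^ k < p.cost P k x := by
    rw [Filter.eventually_all_finset]
    intro q hq
    obtain ⟨h1, h2, h3, h4, h5⟩ := hS.1 q hq
    exact tr_eng_pair hp hc P hP hd hno q.1 q.2 h1 h2 h3 h4 h5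
  filter_upwards [hall] with k hk
  choose! f hf using hk
  have hinj : Set.InjOn f S := by
    intro q hq q' hq' hff
    by_contra hne
    obtain ⟨-, a1, a2, -⟩ := hf q hq
    obtain ⟨-, b1, b2, -⟩ := hf q' hq'
    rw [← hff] at b1 b2
    have hpos : ((P.pt k (f q).1 : ℚ) : ℝ) ≤ ((P.pt k (f q).1 + P.pt k (f q).2 : ℚ) : ℝ) := by
      have : (0 : ℚ) ≤ P.pt k (f q).2 := by
        unfold EPar.pt
        positivity
      have : P.pt k (f q).1 ≤ P.pt k (f q).1 + P.pt k (f q).2 := by linarith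
      exact_mod_cast this
    rcases hS.2 q hq q' hq' hne with h | h
    · linarith
    · linarith
  calc (S.card : ℝ) * (P.thr / 2 ^ k) = ∑ _q ∈ S, P.thr / 2 ^ k := by rw [Finset.sum_const, nsmul_eq_mul]
    _ ≤ ∑ q ∈ S, p.cost P k (f q) := Finset.sum_le_sum fun q hq => (hf q hq).2.2.2.le
    _ = ∑ x ∈ S.image f, p.cost P k x := (Finset.sum_image hinj).symm
    _ ≤ p.tot P k := by
        unfold EPath.tot
        refine Finset.sum_le_sum_of_subset_of_nonneg ?_ (fun x _ _ => tr_cost_nonneg hp P k x)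
        intro x hx
        obtain ⟨q, hq, rfl⟩ := Finset.mem_image.1 hx
        exact (hf q hq).1

/-- a jump of the extended profile gives a rational full-to-empty block -/
theorem tr_eng_rat (hp : p.Reg θ c₁) (a β b : ℝ) (h0 : 0 ≤ a) (h1 : a < β) (h2 : β < b) (h3 : b ≤ 1)
    (hfull : ∀ x ∈ Icc a β, eExt p.G x = eExt p.G β - (β - x)) (hempty : ∀ x ∈ Icc β b, eExt p.G x = eExt p.G β)
    (η : ℝ) (hη : 0 < η) : ∃ s t : ℚ, EBlk s t ∧ p.Jump η s t := by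
  have hmin : (0 : ℝ) < min (1 / 8) (min (β - a) (b - β)) := lt_min (by norm_num) (lt_min (by linarith) (by linarith))
  obtain ⟨t, ht0, ht⟩ := exists_rat_btwn hmin
  have ht8 : (t : ℝ) < 1 / 8 := lt_of_lt_of_le ht (min_le_left _ _)
  have hta : (t : ℝ) < β - a := lt_of_lt_of_le ht ((min_le_right _ _).trans (min_le_left _ _))
  have htb : (t : ℝ) < b - β := lt_of_lt_of_le ht ((min_le_right _ _).trans (min_le_right _ _))
  have hε : 0 < min (η * t) ((t : ℝ) / 2) := lt_min (by positivity) (by positivity)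
  obtain ⟨s, hs1, hs2⟩ := exists_rat_btwn (by linarith : β - t / 2 - min (η * t) ((t : ℝ) / 2) < β - t / 2)
  have hε1 := min_le_left (η * t) ((t : ℝ) / 2)
  have hε2 := min_le_right (η * t) ((t : ℝ) / 2)
  have hs0 : (0 : ℝ) ≤ s := by linarith
  have hst : (s : ℝ) + t ≤ 1 := by linarith
  have hs0q : 0 ≤ s := by exact_mod_cast hs0
  have ht0q : 0 < t := by exact_mod_cast ht0
  have hstq : s + t ≤ 1 := by exact_mod_cast hst
  have ht8q : t < 1 / 8 := by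
    have : (t : ℝ) < ((1 / 8 : ℚ) : ℝ) := by
      push_cast
      exact ht8
    exact_mod_cast this
  refine ⟨s, t, ⟨hs0q, ht0q, hstq, ht8q⟩, ?_⟩
  have g1 : p.G s = eExt p.G β - (β - s) := by
    rw [← tr_eExt_rat hp s hs0q (by linarith)]
    exact hfull _ ⟨by linarith, by linarith⟩
  have g2 : p.G (s + t) = eExt p.G β := by
    rw [← tr_eExt_rat hp (s + t) (by linarith) hstq]
    push_cast
    exact hempty _ ⟨by linarith, by linarith⟩
  have g3 : p.G (s + t / 2) = eExt p.G β - (β - (s + t / 2)) := by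
    rw [← tr_eExt_rat hp (s + t / 2) (by linarith) (by linarith)]
    push_cast
    exact hfull _ ⟨by linarith, by linarith⟩
  unfold EPath.Jump
  rw [g1, g2, g3]
  constructor
  · rw [abs_le]
    constructor <;> linarith
  · have : eExt p.G β - (β - (s + t / 2)) - (eExt p.G β - (β - s)) - (t : ℝ) / 2 = 0 := by ring
    rw [this, abs_zero]
    positivity

/-- **The engine on one path.**  GLUE: `tr_eng_bin` for `d ∈ D`, `tr_eng_binall`, `tr_eng_count` + `hfreq` (bound `M₀ = ⌈B/thr⌉`), `tr_eng_jump`, `tr_eng_rat`. -/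
theorem tr_eng_path (hp : p.Reg θ c₁) (hc : 0 < c₁) (hθ0 : 0 < θ) (hθ1 : θ < 1)
    (Pd : ℝ → EPar) (D : Set ℝ) (hD : D.Countable)
    (hcov : Ioo (0 : ℝ) 1 ⊆ ⋃ d ∈ D, Ioo (d - (Pd d).tiny) (d + (Pd d).tiny))
    (hOk : ∀ d ∈ D, (Pd d).Ok c₁ ∧ (Pd d).d = d ∧ p.NoSucc (Pd d) ∧ Summable (fun k => p.tot (Pd d) k))
    (hhalf : (Pd (1 / 2)).Ok c₁ ∧ (Pd (1 / 2)).d = 1 / 2 ∧ p.NoSucc (Pd (1 / 2)))
    (B : ℝ) (hfreq : ∃ᶠ k : ℕ in atTop, p.tot (Pd (1 / 2)) k * 2 ^ k ≤ B)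
    (η : ℝ) (hη : 0 < η) (hjump : ∀ s t : ℚ, EBlk s t → ¬ p.Jump η s t) : False := by
  have hlip := tr_eExt_lip hp
  have hmono := tr_eExt_mono hp
  have hlow := tr_eExt_low hp hθ0.le
  have hbin : ∀ᵐ x : ℝ, x ∈ Ioo (0 : ℝ) 1 → HasDerivAt (eExt p.G) 1 x ∨ HasDerivAt (eExt p.G) 0 x := by
    refine tr_eng_binall (eExt p.G) hlip hmono (fun d => (Pd d).tiny) D hD hcov fun d hd => ?_
    obtain ⟨o1, o2, o3, o4⟩ := hOk d hd
    have := tr_eng_bin hp hc (Pd d) o1 o3 o4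
    rwa [o2] at this
  obtain ⟨o1, o2, o3⟩ := hhalf
  have hthr := tr_thr_pos (Pd (1 / 2)) o1
  have hM : ∀ S : Finset (ℝ × ℝ), EFam (eExt p.G) S → S.card ≤ ⌈B / (Pd (1 / 2)).thr⌉₊ := by
    intro S hS
    obtain ⟨k, hk1, hk2⟩ := (hfreq.and_eventually (tr_eng_count hp hc (Pd (1 / 2)) o1 o2 o3 S hS)).exists
    have h2k : (0 : ℝ) < 2 ^ k := by positivity
    have h1 : (S.card : ℝ) * (Pd (1 / 2)).thr ≤ B := by
      refine le_trans ?_ hk1
      have := mul_le_mul_of_nonneg_right hk2 h2k.le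
      refine le_trans (le_of_eq ?_) this
      field_simp
    have h2 : (S.card : ℝ) ≤ B / (Pd (1 / 2)).thr := by
      rwa [le_div_iff₀ hthr]
    exact_mod_cast h2.trans (Nat.le_ceil _)
  have g0 : eExt p.G 0 = 0 := by
    have := tr_eExt_rat hp 0 le_rfl zero_le_one
    rw [hp.G0] at this
    simpa using this
  have g1 : eExt p.G 1 = θ := by
    have := tr_eExt_rat hp 1 zero_le_one le_rfl
    rw [hp.G1] at this
    simpa using this
  obtain ⟨a, β, b, h0, h1, h2, h3, hfull, hempty⟩ := tr_eng_jump (eExt p.G) hlip hmono θ hθ0 hθ1 g0 g1 hlow hbin _ hM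
  obtain ⟨s, t, hblk, hj⟩ := tr_eng_rat hp a β b h0 h1 h2 h3 hfull hempty η hη
  exact hjump s t hblk hj

end Claimed.Agent.R257.TR
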