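import Claimed.Agent.R257.TR.Eng.Defs

/-!
# R257 / TR / Eng / Real : real-variable lemmas of the ENGINE (Mathlib only)       (captain TR: helper217)

Leaves L-TR-E-HILL, FTC, BINALL, COVER, JUMP.  Every statement is about ONE function `g : ℝ → ℝ`.
-/

set_option autoImplicit false

namespace Claimed.Agent.R257.TR

open MeasureTheory Set Filter Topology
open scoped ENNReal

theorem tr_hill_last (H : ℝ → ℝ) (hH : Continuous H) (c d lam : ℝ) (hcd : c ≤ d) (hc : H c ≤ lam) (hd : lam ≤ H d) :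
    ∃ s ∈ Icc c d, H s = lam ∧ ∀ t, s < t → t ≤ d → lam < H t := by
  have hcomp : IsCompact (Icc c d ∩ {t | H t ≤ lam}) := isCompact_Icc.inter_right (isClosed_le hH continuous_const)
  obtain ⟨s, hs, hmax⟩ := hcomp.exists_isGreatest ⟨c, ⟨le_refl c, hcd⟩, hc⟩
  have hgt : ∀ t, s < t → t ≤ d → lam < H t := by
    intro t hst htd
    by_contra hcon
    push Not at hcon
    exact absurd (hmax ⟨⟨hs.1.1.trans hst.le, htd⟩, hcon⟩) (not_le.2 hst)
  refine ⟨s, hs.1, le_antisymm hs.2 ?_, hgt⟩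
  by_contra hcon
  push Not at hcon
  obtain ⟨t, ht, hte⟩ : lam ∈ H '' Icc s d := intermediate_value_Icc hs.1.2 hH.continuousOn ⟨hcon.le, hd⟩
  rcases eq_or_lt_of_le ht.1 with h | h
  · subst h
    linarith
  · exact absurd hte (hgt t h ht.2).ne'

theorem tr_hill_first (H : ℝ → ℝ) (hH : Continuous H) (c d lam : ℝ) (hcd : c ≤ d) (hc : lam ≤ H c) (hd : H d ≤ lam) :
    ∃ s ∈ Icc c d, H s = lam ∧ ∀ t, c ≤ t → t < s → lam < H t := by
  obtain ⟨s, hs, h1, h2⟩ := tr_hill_last (fun t => H (-t)) (hH.comp continuous_neg) (-d) (-c) lam (by linarith)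
    (by simpa using hd) (by simpa using hc)
  refine ⟨-s, ⟨by linarith [hs.2], by linarith [hs.1]⟩, h1, fun t h3 h4 => ?_⟩
  have := h2 (-t) (by linarith) (by linarith)
  simpa using this

/-- **Balanced hill** (H (t:balanced-hill), U4 of report 832).  `H` continuous, rises after `a`, falls before `b`.
PLAN.  `λ₀ = max (H a) (H b) < max_{[a,b]} H`; pick `λ₁` strictly between, `x*` a maximum point, `(a',b')` = the component of `{H > λ₁}` containing `x*`: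
`a < a' < b' < b`, `H a' = H b' = λ₁`; `r₀ = b' - a'`.  For `r < r₀` let `Λ = {λ | ∃ p q ∈ [a',b'], q - p ≥ r, H ≥ λ on [p,q]}`: contains `λ₁`, bounded, closed (compactness of the pairs `(p,q)`).
`λ* = max Λ`, with `[p,q]`; enlarge it to the maximal interval `[p',q'] ⊆ [a',b']` on which `H ≥ λ*`: `H p' = H q' = λ*`.
The level set `Z = {H = λ*} ∩ [p',q']` has no gap longer than `r` (a gap `(u,v)`, `v-u > r`, gives the higher level `min_{[u+τ,v-τ]} H`, `τ = (v-u-r)/2`).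
`x = p'`, `y = min (Z ∩ [x+r, q'])`: `r ≤ y - x ≤ 2r`. -/
theorem tr_eng_hill (H : ℝ → ℝ) (hH : Continuous H) (a b : ℝ) (hab : a < b)
    (hrise : ∀ᶠ u in 𝓝[>] (0 : ℝ), H a < H (a + u)) (hfall : ∀ᶠ u in 𝓝[>] (0 : ℝ), H b < H (b - u)) :
    ∃ r₀ a' b' : ℝ, 0 < r₀ ∧ a < a' ∧ b' < b ∧ ∀ r : ℝ, 0 < r → r < r₀ →
      ∃ x y : ℝ, a' ≤ x ∧ y ≤ b' ∧ r ≤ y - x ∧ y - x ≤ 2 * r ∧ H y = H x ∧ ∀ u ∈ Icc x y, H x ≤ H u := by
  -- the maximum
  obtain ⟨xs, hxs, hmax⟩ := isCompact_Icc.exists_isMaxOn (nonempty_Icc.2 hab.le) hH.continuousOn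
  have hmax' : ∀ t ∈ Icc a b, H t ≤ H xs := fun t ht => hmax ht
  have hsmall : Ioo (0 : ℝ) (b - a) ∈ 𝓝[>] (0 : ℝ) := Ioo_mem_nhdsGT (by linarith)
  have ha : H a < H xs := by
    obtain ⟨u, hu1, hu2⟩ := (hrise.and hsmall).exists
    exact lt_of_lt_of_le hu1 (hmax' _ ⟨by linarith [hu2.1], by linarith [hu2.2]⟩)
  have hb : H b < H xs := by
    obtain ⟨u, hu1, hu2⟩ := (hfall.and hsmall).exists
    exact lt_of_lt_of_le hu1 (hmax' _ ⟨by linarith [hu2.2], by linarith [hu2.1]⟩)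
  obtain ⟨l1, hl1, hl2⟩ := exists_between (max_lt ha hb)
  have hla : H a < l1 := lt_of_le_of_lt (le_max_left _ _) hl1
  have hlb : H b < l1 := lt_of_le_of_lt (le_max_right _ _) hl1
  obtain ⟨a', ha', hHa', hga⟩ := tr_hill_last H hH a xs l1 hxs.1 hla.le hl2.le
  obtain ⟨b', hb', hHb', hgb⟩ := tr_hill_first H hH xs b l1 hxs.2 hl2.le hlb.le
  have haa' : a < a' := lt_of_le_of_ne ha'.1 (fun h => by rw [← h] at hHa'; linarith)
  have hbb' : b' < b := lt_of_le_of_ne hb'.2 (fun h => by rw [h] at hHb'; linarith)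
  have ha'x : a' < xs := lt_of_le_of_ne ha'.2 (fun h => by rw [h] at hHa'; linarith)
  have hge : ∀ t ∈ Icc a' b', l1 ≤ H t := by
    intro t ht
    rcases eq_or_lt_of_le ht.1 with h | h
    · rw [← h, hHa']
    rcases le_total t xs with h' | h'
    · exact (hga t h h').le
    rcases eq_or_lt_of_le ht.2 with h'' | h''
    · rw [h'', hHb']
    · exact (hgb t h' h'').le
  refine ⟨b' - a', a', b', by linarith [hb'.1], haa', hbb', fun r hr0 hr => ?_⟩
  -- the best window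
  have hScl : IsClosed (⋂ u ∈ Icc (0 : ℝ) r, {z : ℝ × ℝ | z.2 ≤ H (z.1 + u)}) :=
    isClosed_biInter fun u _ => isClosed_le continuous_snd (hH.comp (continuous_fst.add continuous_const))
  have hScp : IsCompact ((Icc a' (b' - r) ×ˢ Icc l1 (H xs)) ∩ ⋂ u ∈ Icc (0 : ℝ) r, {z : ℝ × ℝ | z.2 ≤ H (z.1 + u)}) :=
    (isCompact_Icc.prod isCompact_Icc).inter_right hScl
  have hSne : ((Icc a' (b' - r) ×ˢ Icc l1 (H xs)) ∩ ⋂ u ∈ Icc (0 : ℝ) r, {z : ℝ × ℝ | z.2 ≤ H (z.1 + u)}).Nonempty := by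
    refine ⟨(a', l1), ⟨⟨le_refl _, by linarith⟩, ⟨le_refl _, hl2.le⟩⟩, ?_⟩
    simp only [mem_iInter]
    intro u hu
    exact hge _ ⟨by linarith [hu.1], by linarith [hu.2]⟩
  obtain ⟨⟨p, ls⟩, hpS, hpmax⟩ := hScp.exists_isMaxOn hSne continuous_snd.continuousOn
  obtain ⟨⟨hp, hls⟩, hwin⟩ := hpS
  simp only [mem_iInter] at hwin
  simp only at hp hls
  have hwin' : ∀ t ∈ Icc p (p + r), ls ≤ H t := by
    intro t ht
    have := hwin (t - p) ⟨by linarith [ht.1], by linarith [ht.2]⟩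
    simpa using this
  have hbest : ∀ p' l', p' ∈ Icc a' (b' - r) → l' ∈ Icc l1 (H xs) → (∀ u ∈ Icc (0 : ℝ) r, l' ≤ H (p' + u)) → l' ≤ ls := by
    intro p' l' h1 h2 h3
    have : (p', l') ∈ ((Icc a' (b' - r) ×ˢ Icc l1 (H xs)) ∩ ⋂ u ∈ Icc (0 : ℝ) r, {z : ℝ × ℝ | z.2 ≤ H (z.1 + u)}) := by
      refine ⟨⟨h1, h2⟩, ?_⟩
      simp only [mem_iInter]
      exact h3
    exact hpmax this
  -- the left end
  obtain ⟨x, hx, hHx, hgx⟩ := tr_hill_last H hH a' p ls hp.1 (by rw [hHa']; exact hls.1) (hwin' p ⟨le_refl _, by linarith⟩)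
  -- the right end
  obtain ⟨q, hq, hHq, hgq⟩ := tr_hill_first H hH (p + r) b' ls (by linarith [hp.2]) (hwin' (p + r) ⟨by linarith, le_refl _⟩)
    (by rw [hHb']; exact hls.1)
  have hxq : ∀ t ∈ Icc x q, ls ≤ H t := by
    intro t ht
    rcases eq_or_lt_of_le ht.1 with h | h
    · rw [← h, hHx]
    rcases le_total t p with h1 | h1
    · exact (hgx t h h1).le
    rcases le_total t (p + r) with h2 | h2
    · exact hwin' t ⟨h1, h2⟩
    rcases eq_or_lt_of_le ht.2 with h3 | h3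
    · rw [h3, hHq]
    · exact (hgq t h2 h3).le
  -- the first return after `x + r`
  have hxr : x + r ≤ q := by linarith [hx.2, hq.1]
  obtain ⟨y, hy, hHy, hgy⟩ := tr_hill_first H hH (x + r) q ls hxr (hxq _ ⟨by linarith, hxr⟩) hHq.le
  refine ⟨x, y, hx.1, hy.2.trans hq.2, by linarith [hy.1], ?_, by rw [hHy, hHx], fun u hu => ?_⟩
  · by_contra hcon
    push Not at hcon
    -- the window `[x + r, x + 2 r]` is strictly higher
    obtain ⟨u1, hu1, hmin⟩ := isCompact_Icc.exists_isMinOn (nonempty_Icc.2 (by linarith : x + r ≤ x + r + r)) hH.continuousOn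
    have h1 : ls < H u1 := hgy u1 hu1.1 (by linarith [hu1.2])
    have h2 : H u1 ≤ ls := by
      refine hbest (x + r) (H u1) ⟨by linarith [hx.1], by linarith [hy.2, hq.2]⟩ ⟨hls.1.trans h1.le, ?_⟩ ?_
      · exact hmax' u1 ⟨by linarith [hu1.1, hx.1], by linarith [hu1.2, hy.2, hq.2]⟩
      · intro u hu
        exact hmin ⟨by linarith [hu.1], by linarith [hu.2]⟩
    linarith
  · rw [hHx]
    exact hxq u ⟨hu.1, hu.2.trans hy.2⟩

theorem tr_eng_const (f : ℝ → ℝ) (K : NNReal) (hl : LipschitzWith K f) (a b : ℝ) (hab : a ≤ b)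
    (h : ∀ᵐ x, x ∈ Ioo a b → HasDerivAt f 0 x) : f b = f a := by
  have hac : AbsolutelyContinuousOnInterval f a b := (hl.lipschitzOnWith (s := uIcc a b)).absolutelyContinuousOnInterval
  have h' : ∀ᵐ x, x ∈ uIcc a b → HasDerivAt f 0 x := by
    have ha : ∀ᵐ x : ℝ, x ≠ a := compl_mem_ae_iff.2 (measure_singleton a)
    have hb : ∀ᵐ x : ℝ, x ≠ b := compl_mem_ae_iff.2 (measure_singleton b)
    filter_upwards [h, ha, hb] with x hx hxa hxb hxm
    rw [uIcc_of_le hab] at hxm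
    exact hx ⟨lt_of_le_of_ne hxm.1 (Ne.symm hxa), lt_of_le_of_ne hxm.2 hxb⟩
  obtain ⟨C, hC⟩ := hac.const_of_ae_hasDerivAt_zero h'
  rw [hC a left_mem_uIcc, hC b right_mem_uIcc]

/-- a Lipschitz function with derivative `1` almost everywhere on `(a,b)` (Mathlib: `LipschitzOnWith.absolutelyContinuousOnInterval`, `AbsolutelyContinuousOnInterval.integral_deriv_eq_sub`) -/
theorem tr_eng_full (g : ℝ → ℝ) (hl : LipschitzWith 1 g) (a b : ℝ) (hab : a ≤ b)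
    (h : ∀ᵐ x, x ∈ Ioo a b → HasDerivAt g 1 x) : g b - g a = b - a := by
  have h1 := tr_eng_const (fun x => g x - x) (1 + 1) (hl.sub LipschitzWith.id) a b hab (by
    filter_upwards [h] with x hx hxm
    exact ((hx hxm).sub (hasDerivAt_id' x)).congr_deriv (by norm_num))
  linarith

/-- a Lipschitz function with derivative `0` almost everywhere on `(a,b)` -/
theorem tr_eng_empty (g : ℝ → ℝ) (hl : LipschitzWith 1 g) (a b : ℝ) (hab : a ≤ b)
    (h : ∀ᵐ x, x ∈ Ioo a b → HasDerivAt g 0 x) : g b = g a := by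
  exact tr_eng_const g 1 hl a b hab h

/-- Lindelöf: countably many windows cover the interior derivative values -/
theorem tr_eng_cover (tiny : ℝ → ℝ) (h : ∀ d ∈ Ioo (0 : ℝ) 1, 0 < tiny d) :
    ∃ D : Set ℝ, D.Countable ∧ D ⊆ Ioo (0 : ℝ) 1 ∧ Ioo (0 : ℝ) 1 ⊆ ⋃ d ∈ D, Ioo (d - tiny d) (d + tiny d) := by
  obtain ⟨t, ht1, ht2, ht3⟩ := TopologicalSpace.countable_cover_nhdsWithin (s := Ioo (0 : ℝ) 1)
    (f := fun d => Ioo (d - tiny d) (d + tiny d)) (fun d hd => mem_nhdsWithin_of_mem_nhds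
      (Ioo_mem_nhds (by linarith [h d hd]) (by linarith [h d hd])))
  exact ⟨t, ht2, ht1, ht3⟩

/-- binary derivative from the windows.  PLAN: a Lipschitz (or monotone) function is differentiable a.e.; its derivative lies in `[0,1]` (monotone, 1-Lipschitz);
values in `(0,1)` are excluded by the countably many null sets. -/
theorem tr_eng_binall (g : ℝ → ℝ) (hl : LipschitzWith 1 g) (hm : Monotone g) (tiny : ℝ → ℝ) (D : Set ℝ) (hD : D.Countable)
    (hcov : Ioo (0 : ℝ) 1 ⊆ ⋃ d ∈ D, Ioo (d - tiny d) (d + tiny d))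
    (h0 : ∀ d ∈ D, volume {x : ℝ | x ∈ Ioo (0 : ℝ) 1 ∧ ∃ g' : ℝ, HasDerivAt g g' x ∧ |g' - d| < tiny d} = 0) :
    ∀ᵐ x : ℝ, x ∈ Ioo (0 : ℝ) 1 → HasDerivAt g 1 x ∨ HasDerivAt g 0 x := by
  have hnull : volume (⋃ d ∈ D, {x : ℝ | x ∈ Ioo (0 : ℝ) 1 ∧ ∃ g' : ℝ, HasDerivAt g g' x ∧ |g' - d| < tiny d}) = 0 :=
    (measure_biUnion_null_iff hD).2 h0
  have hn : ∀ᵐ x : ℝ, x ∉ ⋃ d ∈ D, {x : ℝ | x ∈ Ioo (0 : ℝ) 1 ∧ ∃ g' : ℝ, HasDerivAt g g' x ∧ |g' - d| < tiny d} :=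
    compl_mem_ae_iff.2 hnull
  filter_upwards [hm.ae_differentiableAt, hn] with x hx hxn hx01
  have hd := hx.hasDerivAt
  have h1 : 0 ≤ deriv g x := hm.deriv_nonneg
  have h2 : deriv g x ≤ 1 := by
    have := norm_deriv_le_of_lipschitz (x₀ := x) hl
    simp only [NNReal.coe_one] at this
    exact (le_abs_self _).trans this
  rcases eq_or_lt_of_le h1 with h3 | h3
  · right
    rw [← h3] at hd
    exact hd
  rcases eq_or_lt_of_le h2 with h4 | h4
  · left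
    rw [h4] at hd
    exact hd
  exfalso
  apply hxn
  have := hcov ⟨h3, h4⟩
  simp only [mem_iUnion] at this ⊢
  obtain ⟨d, hdD, hd1, hd2⟩ := this
  exact ⟨d, hdD, hx01, deriv g x, hd, abs_lt.2 ⟨by linarith, by linarith⟩⟩

/-- an interval without empty points is full -/
theorem tr_eng_jump_full (g : ℝ → ℝ) (hl : LipschitzWith 1 g)
    (hbin : ∀ᵐ x : ℝ, x ∈ Ioo (0 : ℝ) 1 → HasDerivAt g 1 x ∨ HasDerivAt g 0 x) (p q : ℝ) (hp : 0 ≤ p) (hq : q ≤ 1)
    (h : ∀ x ∈ Ioo p q, ¬ HasDerivAt g 0 x) : ∀ x ∈ Icc p q, g x = g q - (q - x) := by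
  intro x hx
  have h1 := tr_eng_full g hl x q hx.2 (by
    filter_upwards [hbin] with y hy hyx
    rcases hy ⟨lt_of_le_of_lt (hp.trans hx.1) hyx.1, lt_of_lt_of_le hyx.2 hq⟩ with h1 | h0
    · exact h1
    · exact absurd h0 (h y ⟨lt_of_le_of_lt hx.1 hyx.1, hyx.2⟩))
  linarith

/-- an interval without full points is empty -/
theorem tr_eng_jump_empty (g : ℝ → ℝ) (hl : LipschitzWith 1 g)
    (hbin : ∀ᵐ x : ℝ, x ∈ Ioo (0 : ℝ) 1 → HasDerivAt g 1 x ∨ HasDerivAt g 0 x) (p q : ℝ) (hp : 0 ≤ p) (hq : q ≤ 1)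
    (h : ∀ x ∈ Ioo p q, ¬ HasDerivAt g 1 x) : ∀ x ∈ Icc p q, g x = g p := by
  intro x hx
  exact tr_eng_empty g hl p x hx.1 (by
    filter_upwards [hbin] with y hy hyx
    rcases hy ⟨lt_of_le_of_lt hp hyx.1, lt_of_lt_of_le hyx.2 (hx.2.trans hq)⟩ with h1 | h0
    · exact absurd h1 (h y ⟨hyx.1, lt_of_lt_of_le hyx.2 hx.2⟩)
    · exact h0)

theorem tr_eng_jump_c1 (g : ℝ → ℝ) (a b : ℝ) (hab : a < b) (h : ∀ x ∈ Icc a b, g x = g b - (b - x)) (hb : HasDerivAt g 0 b) : False := by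
  have h1 : HasDerivWithinAt (fun x : ℝ => g b - (b - x)) 1 (Icc a b) b := by
    have : HasDerivAt (fun x : ℝ => g b - (b - x)) (0 - (0 - 1)) b :=
      (hasDerivAt_const b (g b)).sub ((hasDerivAt_const b b).sub (hasDerivAt_id b))
    simpa using this.hasDerivWithinAt
  have h2 : HasDerivWithinAt g 1 (Icc a b) b := h1.congr h (h b (right_mem_Icc.2 hab.le))
  have h3 := (uniqueDiffOn_Icc hab b (right_mem_Icc.2 hab.le)).eq_deriv _ h2 hb.hasDerivWithinAt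
  norm_num at h3

theorem tr_eng_jump_c2 (g : ℝ → ℝ) (a b : ℝ) (hab : a < b) (h : ∀ x ∈ Icc a b, g x = g a) (ha : HasDerivAt g 1 a) : False := by
  have h1 : HasDerivWithinAt (fun _ : ℝ => g a) 0 (Icc a b) a := (hasDerivAt_const a (g a)).hasDerivWithinAt
  have h2 : HasDerivWithinAt g 0 (Icc a b) a := h1.congr h (h a (left_mem_Icc.2 hab.le))
  have h3 := (uniqueDiffOn_Icc hab a (left_mem_Icc.2 hab.le)).eq_deriv _ h2 ha.hasDerivWithinAt
  norm_num at h3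

/-- between a full point and a later empty point: a jump, or a finer alternation -/
theorem tr_eng_jump_step (g : ℝ → ℝ) (hl : LipschitzWith 1 g)
    (hbin : ∀ᵐ x : ℝ, x ∈ Ioo (0 : ℝ) 1 → HasDerivAt g 1 x ∨ HasDerivAt g 0 x) (a b : ℝ) (ha0 : 0 < a) (hab : a < b) (hb1 : b < 1)
    (ha : HasDerivAt g 1 a) (hb : HasDerivAt g 0 b) :
    (∃ β, a < β ∧ β < b ∧ (∀ x ∈ Icc a β, g x = g β - (β - x)) ∧ ∀ x ∈ Icc β b, g x = g β) ∨
      ∃ b' a', a < b' ∧ b' < a' ∧ a' < b ∧ HasDerivAt g 0 b' ∧ HasDerivAt g 1 a' := by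
  obtain ⟨Z, hZ⟩ : ∃ Z : Set ℝ, Z = {x | x ∈ Ioc a b ∧ HasDerivAt g 0 x} := ⟨_, rfl⟩
  have hbZ : b ∈ Z := by rw [hZ]; exact ⟨⟨hab, le_rfl⟩, hb⟩
  have hlow : ∀ x ∈ Z, a ≤ x := by
    intro x hx
    rw [hZ] at hx
    exact hx.1.1.le
  have hbdd : BddBelow Z := ⟨a, hlow⟩
  obtain ⟨β, hβ⟩ : ∃ β : ℝ, β = sInf Z := ⟨_, rfl⟩
  have haβ : a ≤ β := by rw [hβ]; exact le_csInf ⟨b, hbZ⟩ hlow
  have hβb : β ≤ b := by rw [hβ]; exact csInf_le hbdd hbZ
  have hno0 : ∀ x ∈ Ioo a β, ¬ HasDerivAt g 0 x := by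
    intro x hx h0
    have hxZ : x ∈ Z := by rw [hZ]; exact ⟨⟨hx.1, (hx.2.trans_le hβb).le⟩, h0⟩
    have : β ≤ x := by rw [hβ]; exact csInf_le hbdd hxZ
    linarith [hx.2]
  by_cases h : ∃ a' ∈ Ioo β b, HasDerivAt g 1 a'
  · obtain ⟨a', ha', h1⟩ := h
    obtain ⟨b', hb'Z, hb'⟩ := exists_lt_of_csInf_lt ⟨b, hbZ⟩ (by rw [← hβ]; exact ha'.1 : sInf Z < a')
    rw [hZ] at hb'Z
    exact Or.inr ⟨b', a', hb'Z.1.1, hb', ha'.2, hb'Z.2, h1⟩
  · have hno1 : ∀ x ∈ Ioo β b, ¬ HasDerivAt g 1 x := fun x hx h1 => h ⟨x, hx, h1⟩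
    have hconst := tr_eng_jump_empty g hl hbin β b (ha0.le.trans haβ) hb1.le hno1
    have hfull := tr_eng_jump_full g hl hbin a β ha0.le (hβb.trans hb1.le) hno0
    rcases eq_or_lt_of_le haβ with e | hlt
    · rw [← e] at hconst
      exact (tr_eng_jump_c2 g a b hab hconst ha).elim
    · rcases eq_or_lt_of_le hβb with e | hlt'
      · rw [e] at hfull
        exact (tr_eng_jump_c1 g a b hab hfull hb).elim
      · exact Or.inl ⟨β, hlt, hlt', hfull, hconst⟩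

/-- arbitrarily long alternations -/
theorem tr_eng_jump_fam (g : ℝ → ℝ)
    (hstep : ∀ a b : ℝ, 0 < a → a < b → b < 1 → HasDerivAt g 1 a → HasDerivAt g 0 b →
      ∃ b' a', a < b' ∧ b' < a' ∧ a' < b ∧ HasDerivAt g 0 b' ∧ HasDerivAt g 1 a') (n : ℕ) :
    ∀ a b : ℝ, 0 < a → a < b → b < 1 → HasDerivAt g 1 a → HasDerivAt g 0 b →
      ∃ S : Finset (ℝ × ℝ), EFam g S ∧ S.card = n + 1 ∧ ∀ p ∈ S, a ≤ p.1 ∧ p.2 ≤ b := by
  induction n with
  | zero =>
    intro a b ha0 hab hb1 ha hb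
    refine ⟨{(a, b)}, ⟨?_, ?_⟩, by simp, ?_⟩
    · intro p hp
      rw [Finset.mem_singleton] at hp
      rw [hp]
      exact ⟨ha0, hab, hb1, ha, hb⟩
    · intro p hp q hq hne
      rw [Finset.mem_singleton] at hp hq
      exact absurd (hp.trans hq.symm) hne
    · intro p hp
      rw [Finset.mem_singleton] at hp
      rw [hp]
      exact ⟨le_rfl, le_rfl⟩
  | succ n ih =>
    intro a b ha0 hab hb1 ha hb
    obtain ⟨b', a', h1, h2, h3, hb', ha'⟩ := hstep a b ha0 hab hb1 ha hb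
    obtain ⟨S, ⟨hS1, hS2⟩, hcard, hin⟩ := ih a' b (ha0.trans (h1.trans h2)) h3 hb1 ha' hb
    have hnot : (a, b') ∉ S := by
      intro hmem
      have := (hin _ hmem).1
      simp only at this
      linarith
    refine ⟨insert (a, b') S, ⟨?_, ?_⟩, by rw [Finset.card_insert_of_notMem hnot, hcard], ?_⟩
    · intro p hp
      rcases Finset.mem_insert.1 hp with e | hpS
      · rw [e]
        exact ⟨ha0, h1, (h2.trans h3).trans hb1, ha, hb'⟩
      · exact hS1 p hpS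
    · intro p hp q hq hne
      rcases Finset.mem_insert.1 hp with e | hpS
      · rcases Finset.mem_insert.1 hq with e' | hqS
        · exact absurd (e.trans e'.symm) hne
        · left
          rw [e]
          exact lt_of_lt_of_le h2 (hin q hqS).1
      · rcases Finset.mem_insert.1 hq with e' | hqS
        · right
          rw [e']
          exact lt_of_lt_of_le h2 (hin p hpS).1
        · exact hS2 p hpS q hqS hne
    · intro p hp
      rcases Finset.mem_insert.1 hp with e | hpS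
      · rw [e]
        exact ⟨le_rfl, (h2.trans h3).le⟩
      · exact ⟨((h1.trans h2).le).trans (hin p hpS).1, (hin p hpS).2⟩

/-- **Full-to-empty jump** (U6 of report 832, without "finite union of intervals").
PLAN.  `D₁ = {HasDerivAt g 1}`, `D₀ = {HasDerivAt g 0}` inside `(0,1)`.  (1) There is `b₁ ∈ D₀` (else `g 1 - g 0 = 1` by `tr_eng_full`) and `a₁ ∈ D₁ ∩ (0,b₁)` (else `g b₁ = g 0 = 0 < θ b₁` by `tr_eng_empty`).
(2) `β = inf (D₀ ∩ (a₁,b₁])`.  `(a₁,β)` contains no point of `D₀`, so it is full (`tr_eng_full` on subintervals); `a₁ < β` because otherwise points of `D₀`... : if `β = a₁` use (3) with `a₁` in place of `β`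
    [points of `D₀` accumulate at `a₁` from the right; points of `D₁` too, since an interval `(a₁,γ)` without points of `D₁` is empty, which contradicts `HasDerivAt g 1 a₁`].
    `β ∉ D₀` when `a₁ < β` (left derivative `1`), hence points of `D₀` accumulate at `β` from the right, `β < b₁`.
(3) If for some `γ > β` the interval `(β,γ)` has no point of `D₁`: it is empty (`tr_eng_empty`): this is the jump.  Otherwise both `D₀` and `D₁` accumulate at `β` from the right and by induction on `M`,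
    for every `γ > β` there is a family `S` with `EFam g S`, `S.card = M`, all pairs inside `(β,γ)` (choose `b ∈ D₀ ∩ (β,γ)`, `a ∈ D₁ ∩ (β,b)`, recurse in `(β,a)`): contradiction with `hM` for `M = M₀+1`. -/
theorem tr_eng_jump (g : ℝ → ℝ) (hl : LipschitzWith 1 g) (hm : Monotone g) (θ : ℝ) (hθ0 : 0 < θ) (hθ1 : θ < 1)
    (g0 : g 0 = 0) (g1 : g 1 = θ) (hlow : ∀ s ∈ Icc (0 : ℝ) 1, θ * s ≤ g s)
    (hbin : ∀ᵐ x : ℝ, x ∈ Ioo (0 : ℝ) 1 → HasDerivAt g 1 x ∨ HasDerivAt g 0 x)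
    (M₀ : ℕ) (hM : ∀ S : Finset (ℝ × ℝ), EFam g S → S.card ≤ M₀) :
    ∃ a β b : ℝ, 0 ≤ a ∧ a < β ∧ β < b ∧ b ≤ 1 ∧ (∀ x ∈ Icc a β, g x = g β - (β - x)) ∧ ∀ x ∈ Icc β b, g x = g β := by
  by_contra hno
  have hstep : ∀ a b : ℝ, 0 < a → a < b → b < 1 → HasDerivAt g 1 a → HasDerivAt g 0 b →
      ∃ b' a', a < b' ∧ b' < a' ∧ a' < b ∧ HasDerivAt g 0 b' ∧ HasDerivAt g 1 a' := by
    intro a b ha0 hab hb1 ha hb
    rcases tr_eng_jump_step g hl hbin a b ha0 hab hb1 ha hb with ⟨β, h1, h2, h3, h4⟩ | h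
    · exact (hno ⟨a, β, b, ha0.le, h1, h2, hb1.le, h3, h4⟩).elim
    · exact h
  -- an empty point
  obtain ⟨b₁, hb₁, hb₁0⟩ : ∃ b₁ ∈ Ioo (0 : ℝ) 1, HasDerivAt g 0 b₁ := by
    by_contra hcon
    have h1 := tr_eng_jump_full g hl hbin 0 1 le_rfl le_rfl (fun x hx h0 => hcon ⟨x, hx, h0⟩) 0 ⟨le_rfl, zero_le_one⟩
    rw [g0, g1] at h1
    linarith
  -- an earlier full point
  obtain ⟨a₁, ha₁, ha₁1⟩ : ∃ a₁ ∈ Ioo (0 : ℝ) b₁, HasDerivAt g 1 a₁ := by
    by_contra hcon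
    have h1 := tr_eng_jump_empty g hl hbin 0 b₁ le_rfl hb₁.2.le (fun x hx h0 => hcon ⟨x, hx, h0⟩) b₁ ⟨hb₁.1.le, le_rfl⟩
    have h2 := hlow b₁ ⟨hb₁.1.le, hb₁.2.le⟩
    rw [h1, g0] at h2
    have := mul_pos hθ0 hb₁.1
    linarith
  obtain ⟨S, hS, hcard, -⟩ := tr_eng_jump_fam g hstep M₀ a₁ b₁ ha₁.1 ha₁.2 hb₁.2 ha₁1 hb₁0
  have := hM S hS
  omega

end Claimed.Agent.R257.TR
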